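import Vale.Agent.P239Z.Inj

set_option linter.all false

/-!
# Homology with coefficients in the group von Neumann algebra in the top degrees
-/

namespace Vale.Agent.P239Z

open Finsupp Vale.Agent.P239 Vale.Agent.P239.M Set

variable {G : Type*} [Group G]

/-- small lists of a given length -/
def Sm (R : Finset G) (m : ℕ) (l : List G) : Prop := l.length = m ∧ SmG R l

open Classical in
/-- the coordinate of a chain along the orbit of `j` -/
noncomputable def ind (j l : List G) : G →₀ ℂ :=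
  if l ≠ [] ∧ (hd l)⁻¹ • l = j then single (hd l) 1 else 0

theorem equi_ind (j : List G) : Equi G (ind j) := fun g l => by
  by_cases h : l = []
  · subst h
    simp [ind, smul_list]
  · have h' : g • l ≠ [] := by simpa [smul_list] using h
    rw [ind, ind, hd_smul g h, mul_inv_rev, mul_smul, inv_smul_smul]
    by_cases hj : (hd l)⁻¹ • l = j
    · rw [if_pos ⟨h', hj⟩, if_pos ⟨h, hj⟩, act_single, smul_eq_mul]
    · rw [if_neg fun a => hj a.2, if_neg fun a => hj a.2, map_zero]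

/-- the orbit map of `j` -/
noncomputable def rc (j : List G) (g : G) : Ch ℂ G := single (g • j) 1

theorem equi_rc (j : List G) : Equi G (rc j) := equi_single fun g s => mul_smul g s j

/-- the finite set of representatives -/
noncomputable def reps (R : Finset G) (m : ℕ) : Finset (List G) := (finite_rep R m).toFinset

variable {R : Finset G} {d m : ℕ} {T s s' E : List G → Ch ℂ G}

theorem decomp {c : Ch ℂ G} (hc : Sup (Sm R (m + 1)) c) :
    ∑ j ∈ reps R m, lc (rc j) (lc (ind j) c) = c := by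
  conv_rhs => rw [← lc_self c]
  simp only [map_lc (lc (rc _))]
  rw [← lc_sum]
  refine lc_congr fun l hl => ?_
  obtain ⟨h1, h2⟩ := hc l hl
  rw [Finset.sum_eq_single ((hd l)⁻¹ • l)]
  · rw [ind, if_pos ⟨ne_nil_of_length h1, rfl⟩, lc_single, one_smul, rc, smul_inv_smul]
  · intro j _ hj
    rw [ind, if_neg fun h => hj h.2.symm, map_zero]
  · exact fun h => absurd ((finite_rep R m).mem_toFinset.2 (mem_rep h1 h2)) h

theorem lc_def {S M : Type*} [AddCommGroup M] [Module ℂ M] (u : S → M) (c : S →₀ ℂ) :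
    lc u c = ∑ i ∈ c.support, c i • u i := linearCombination_apply _ _

theorem sup_rc {j : List G} (hj : j ∈ reps R m) (g : G) : Sup (Sm R (m + 1)) (rc j g) := by
  have := (finite_rep R m).mem_toFinset.1 hj
  exact Sup.single 1 ⟨(length_smul g j).trans this.1, smG_smul g this.2.2⟩

theorem sup_bd {c : Ch ℂ G} (hc : Sup (Sm R (m + 1)) c) : Sup (Sm R m) (M.bd c) :=
  hc.bd fun l l' h1 h2 h3 => ⟨by have := h3.1; omega, smG_sub h3.2 h1⟩

theorem Dom.equi_sub (hT : Dom R d T) (e : Equi G s) : Equi G fun l => T l - M.bd (s l) :=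
  hT.equi.sub (e.comp equi_bdL)

theorem solve (hT : Dom R d T) (e : ∀ l, Sup (Sm R (m + 2)) (s l))
    {f : List G → List G → G →₀ ℂ}
    (h : ∀ j, Cob (m + 1) fun l => lc (ind j) (T l - M.bd (s l)) - f j l) :
    ∃ s', Equi G s' ∧ (∀ l, Sup (Sm R (m + 1)) (s' l)) ∧ ∀ l : List G, l.length = m + 1 →
      T l - M.bd (s l) = ∑ j ∈ reps R m, lc (rc j) (f j l) + lc s' (bdL ℂ l) := by
  choose y hy h using h
  refine ⟨fun l => ∑ j ∈ reps R m, lc (rc j) (y j l), Equi.sum _ fun j _ => (hy j).comp (equi_rc j),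
    fun l => Box.sup_sum fun j hj => ?_, fun l hl => ?_⟩
  · rw [lc_def]
    exact Box.sup_sum fun g _ => Box.sup_smul _ (sup_rc hj g)
  · rw [lc_sum, ← Finset.sum_add_distrib, ← decomp (((hT.sup l).mono fun l' h' =>
      (⟨h'.1.trans hl, h'.2⟩ : Sm R (m + 1) l')).sub (sup_bd (e l)))]
    refine Finset.sum_congr rfl fun j _ => ?_
    rw [← map_lc, ← h j l hl, ← map_add, add_sub_cancel]

theorem lc_sub_bd (hT : Dom R d T) {l : List G}
    (h : T l - M.bd (s l) = E l + lc s' (bdL ℂ l)) :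
    lc (fun l => T l - M.bd (s' l)) (bdL ℂ l) = M.bd (E l) := by
  rw [lc_sub, ← map_lc, ← hT.chain, ← sub_eq_iff_eq_add'.2 h, map_sub, map_sub, bd_bd]
  abel

/-- `T - ∂ s` is a cocycle on lists of length `m` -/
structure Hc (R : Finset G) (T : List G → Ch ℂ G) (m : ℕ) (s : List G → Ch ℂ G) : Prop where
  equi : Equi G s
  sup : ∀ l, Sup (Sm R (m + 1)) (s l)
  coc : ∀ l : List G, l.length = m + 1 → lc (fun l => T l - M.bd (s l)) (bdL ℂ l) = 0

theorem Hc.coc_ind (h : Hc R T m s) (j : List G) :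
    Coc m fun l => lc (ind j) (T l - M.bd (s l)) := fun l hl => by
  rw [← map_lc, h.coc l hl, map_zero]

theorem Hc.step (hT : Dom R d T) (h : Hc R T (m + 1) s)
    (hv : ∀ f : List G → G →₀ ℂ, Equi G f → Coc (m + 1) f → Cob (m + 1) f) :
    ∃ s', Hc R T m s' ∧ ∀ l : List G, l.length = m + 1 →
      T l - M.bd (s l) = 0 + lc s' (bdL ℂ l) := by
  obtain ⟨s', a1, a2, a3⟩ := solve hT h.sup (f := fun _ _ => 0) fun j => by
    simpa only [sub_zero] using hv _ ((hT.equi_sub h.equi).comp (equi_ind j)) (h.coc_ind j)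
  simp only [map_zero, Finset.sum_const_zero] at a3
  exact ⟨s', ⟨a1, a2, fun l hl => by rw [lc_sub_bd hT (E := fun _ => 0) (a3 l hl), map_zero]⟩, a3⟩

theorem exists_hc (hT : Dom R d T) {n : ℕ} (hD : Dual G n) (k : ℕ) :
    ∀ m, n + 1 ≤ m → d ≤ m + k → ∃ s, Hc R T m s := by
  induction k with
  | zero =>
    refine fun m _ hd => ⟨fun _ => 0, equi_zero, fun _ => Sup.zero, fun l hl => ?_⟩
    simp only [map_zero, sub_zero]
    rw [← hT.chain, hT.top l (by omega), map_zero]
  | succ k ih =>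
    intro m hm hd
    obtain ⟨s, hs⟩ := ih (m + 1) (by omega) (by omega)
    exact (hs.step hT (hD.1 m (by omega))).imp fun _ h => h.1

/-- cycles with coefficients in the group von Neumann algebra -/
def Cyc (m : ℕ) (z : List G →₀ VN G) : Prop :=
  (∀ l ∈ z.support, l.length = m) ∧ bc G (bdL ℂ) z ∈ rl G (List G)

/-- chains whose image is a boundary -/
def Bdy (T : List G → Ch ℂ G) (z : List G →₀ VN G) : Prop :=
  ∃ y, bc G T z - bc G (bdL ℂ) y ∈ rl G (List G)

theorem bdy_of (e : Equi G s') (h : ∀ l : List G, l.length = m →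
    T l - M.bd (s l) = E l + lc s' (bdL ℂ l)) {z : List G →₀ VN G} (hz : Cyc m z)
    (hE : Bdy E z) : Bdy T z := by
  obtain ⟨y, hy⟩ := hE
  refine ⟨bc G s z + y, ?_⟩
  have h1 : bc G T z - bc G (bdL ℂ) (bc G s z) = bc G E z + bc G s' (bc G (bdL ℂ) z) := by
    rw [bc_bc, bc_bc, ← bc_sub, ← bc_add]
    exact bc_congr fun l hl => h l (hz.1 l hl)
  rw [map_add, ← sub_sub, h1, add_sub_right_comm]
  exact add_mem hy (e.bc_rl hz.2)

variable {f f' : List G → G →₀ ℂ}

theorem Cob.mu_bc (h : Cob m f) {z : List G →₀ VN G} (hz : Cyc m z) : mu G (bc G f z) = 0 := by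
  obtain ⟨y, h1, h2⟩ := h
  rw [bc_congr fun l hl => h2 l (hz.1 l hl), ← bc_bc]
  exact mu_rl (h1.bc_rl hz.2)

theorem Coc.rt (h : Coc m f) (g : G) : Coc m fun l => rt g (f l) := fun l hl => by
  rw [← map_lc, h l hl, map_zero]

theorem Coc.sub (h : Coc m f) (h' : Coc m f') (z : ℂ) : Coc m fun l => f l - z • f' l :=
  fun l hl => by rw [lc_sub, lc_smul, h l hl, h' l hl, smul_zero, sub_zero]

theorem cob_zero : Cob m (fun _ : List G => (0 : G →₀ ℂ)) :=
  ⟨_, equi_zero, fun l _ => (lc_zero _).symm⟩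

theorem Dual.norm {n : ℕ} (h : Dual G n) : ∃ (u : List G → G →₀ ℂ) (w : G →* ℤˣ)
    (β : (List G → G →₀ ℂ) → ℂ), Equi G u ∧ Coc (n + 1) u ∧
      (∀ g, Cob (n + 1) fun l => rt g (u l) - ((w g : ℤ) : ℂ) • u l) ∧
      (∀ f, Equi G f → Coc (n + 1) f → Cob (n + 1) fun l => f l - β f • u l) ∧
      ((∀ z : ℂ, Cob (n + 1) (fun l => z • u l) → z = 0) ∨ β = 0) := by
  obtain ⟨-, β, w, h1, h2, h3, h4⟩ := h
  by_cases h : ∃ u, Equi G u ∧ Coc (n + 1) u ∧ β u ≠ 0
  · obtain ⟨u, u1, u2, u3⟩ := h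
    refine ⟨u, MonoidHom.mk' w fun g k => ?_, fun f => β f / β u, u1, u2, fun g => ?_,
      fun f f1 f2 => ?_, Or.inl fun z hz => ?_⟩
    · have := h4 _ k (u1.rt g) (u2.rt g)
      simp only [rt_rt] at this
      rw [h4 _ _ u1 u2, h4 _ _ u1 u2, ← mul_assoc, mul_left_inj' u3, mul_comm] at this
      exact Units.ext (by exact_mod_cast this)
    · refine h1 _ ((u1.rt g).sub (u1.smul _)) ((u2.rt g).sub u2 _) ?_
      rw [h3 _ _ _ (u1.rt g) (u2.rt g) u1 u2, h4 _ _ u1 u2]
      exact sub_self _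
    · refine h1 _ (f1.sub (u1.smul _)) (f2.sub u2 _) ?_
      rw [h3 _ _ _ f1 f2 u1 u2, div_mul_cancel₀ _ u3, sub_self]
    · have := h3 _ _ (-z) equi_zero (fun l _ => lc_zero _) u1 u2
      simp only [neg_smul, sub_neg_eq_add, zero_add] at this
      rw [h2 _ hz, h2 _ cob_zero] at this
      simpa [u3] using this
  · push Not at h
    refine ⟨fun _ => 0, 1, 0, equi_zero, fun l _ => lc_zero _, fun g => ?_, fun f f1 f2 => ?_,
      Or.inr rfl⟩
    · simpa only [map_zero, smul_zero, sub_zero] using cob_zero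
    · simpa only [smul_zero, sub_zero] using h1 f f1 f2 (h f f1 f2)

theorem eq_zero_of_inn [Infinite G] (w : G → ℤˣ) {a : VN G}
    (h : ∀ g, a * lam g = ((w g : ℤ) : ℂ) • a) : a = 0 := by
  have hc : ∀ x, ‖a.op (dl 1) x‖ = ‖a.op (dl 1) 1‖ := fun x => by
    have h1 := congrArg (fun b : VN G => b.op (dl 1) 1) (h x⁻¹)
    simp only [map_mul, map_smul, ContinuousLinearMap.mul_apply, lam_dl, mul_one,
      ContinuousLinearMap.smul_apply, lp.coeFn_smul, Pi.smul_apply, smul_eq_mul] at h1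
    rw [VN.op_dl, inv_inv, one_mul] at h1
    rw [h1, norm_mul]
    rcases Int.units_eq_one_or (w x⁻¹) with h2 | h2 <;> simp [h2]
  have hs := summable_norm_sq (a.op (dl 1))
  simp only [hc] at hs
  have h1 : ‖a.op (dl 1) 1‖ ^ 2 = 0 := by
    by_contra hne
    exact absurd ((summable_const_iff _).1 hs) hne
  refine VN.op_ext_one (lp.ext (funext fun x => ?_))
  rw [norm_eq_zero.1 ((hc x).trans ((pow_eq_zero_iff two_ne_zero).1 h1)), map_zero]
  rfl

/-- twisted derivations -/
noncomputable def Der (w : G → ℤˣ) : Submodule (VN G) (G → VN G) where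
  carrier := {θ | ∀ h k, θ (h * k) = ((w h : ℤ) : ℂ) • θ k + θ h * lam k}
  zero_mem' := fun h k => by simp
  add_mem' := fun {a b} ha hb h k => by
    rw [Pi.add_apply, ha, hb, Pi.add_apply, Pi.add_apply, smul_add, add_mul]
    abel
  smul_mem' := fun c a ha h k => by
    simp only [Pi.smul_apply, smul_eq_mul]
    rw [ha, mul_add, mul_assoc, mul_smul_comm]

/-- inner twisted derivations -/
noncomputable def inn (w : G → ℤˣ) : VN G →ₗ[VN G] (G → VN G) :=
  LinearMap.pi fun h => LinearMap.toSpanSingleton (VN G) (VN G) (lam h - ((w h : ℤ) : ℂ) • 1)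

theorem inn_apply (w : G → ℤˣ) (a : VN G) (h : G) :
    inn w a h = a * lam h - ((w h : ℤ) : ℂ) • a := by
  change a * _ = _
  rw [mul_sub, mul_smul_comm, mul_one]

theorem lc_swap {e : G → G →₀ ℂ} (he : Equi G e) (c : G →₀ ℂ) :
    lc e c = lc (fun h => rt h c) (e 1) := by
  induction c using Finsupp.induction_linear with
  | zero => simp only [map_zero, lc_zero]
  | add a b ha hb => simp only [map_add, ha, hb, lc_add]
  | single g r =>
    have := he g 1
    rw [smul_eq_mul, mul_one] at this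
    rw [lc_single, this]
    conv_lhs => rw [← lc_self (e 1), map_lc, ← lc_smul]
    simp only [act_single, rt_single, smul_single, smul_eq_mul, mul_one]

theorem mu_up (c : G →₀ ℂ) : mu G (up c) = ∑ g ∈ c.support, c g • lam g := by
  rw [← lc_def]
  induction c using Finsupp.induction_linear with
  | zero => simp only [map_zero]
  | add a b ha hb => simp only [map_add, ha, hb]
  | single g r => rw [up_single, lc_single, LinearMap.map_smul_of_tower, mu_single, one_mul]

/-- **the top degrees** -/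
theorem top_degrees [Infinite G] (hT : Dom R d T) {n : ℕ} (hD : Dual G (n + 1)) :
    (∀ m, n + 2 ≤ m → ∀ z, Cyc m z → Bdy T z) ∧
    ∃ (w : G →* ℤˣ) (Θ : (List G →₀ VN G) →ₗ[VN G] (G → VN G)), ∀ z, Cyc (n + 1) z →
      Θ z ∈ Der w ∧ (Θ z ∈ LinearMap.range (inn w) → Bdy T z) := by
  obtain ⟨u, w, β, u1, u2, u3, u4, u5⟩ := hD.norm
  obtain ⟨s, hs⟩ := exists_hc hT hD d (n + 2) le_rfl (by omega)
  obtain ⟨s', a1, a2, a3⟩ := solve hT hs.sup
    (f := fun j l => β (fun l => lc (ind j) (T l - M.bd (s l))) • u l) fun j =>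
      u4 _ ((hT.equi_sub hs.equi).comp (equi_ind j)) (hs.coc_ind j)
  let Ω : G → Ch ℂ G := fun g =>
    ∑ j ∈ reps R (n + 1), β (fun l => lc (ind j) (T l - M.bd (s l))) • rc j g
  have eΩ : Equi G Ω := Equi.sum _ fun j _ => (equi_rc j).smul _
  have a4 : ∀ l : List G, l.length = n + 2 →
      T l - M.bd (s l) = lc Ω (u l) + lc s' (bdL ℂ l) := fun l hl => by
    rw [a3 l hl, lc_sum]
    simp only [map_smul, lc_smul]
  refine ⟨fun m hm z hz => ?_, w, ?_⟩
  · rcases hm.eq_or_lt with rfl | hm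
    · refine bdy_of a1 a4 hz ⟨0, ?_⟩
      have h1 : mu G (bc G u z) = 0 := eq_zero_of_inn w fun g => by
        have := (u3 g).mu_bc hz
        rwa [bc_sub, bc_smul, map_sub, mu_bc_rt, LinearMap.map_smul_of_tower, sub_eq_zero] at this
      have := eΩ.bc_mu (bc G u z)
      rwa [h1, zero_smul, bc_bc, ← map_zero (bc G (bdL ℂ))] at this
    · obtain ⟨m, rfl⟩ : ∃ k, m = k + 1 := ⟨m - 1, by omega⟩
      obtain ⟨s, hs⟩ := exists_hc hT hD d (m + 1) (by omega) (by omega)
      obtain ⟨s', b1, b2⟩ := hs.step hT (hD.1 m (by omega))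
      exact bdy_of b1.equi b2 hz ⟨0, by rw [bc_zero, map_zero, sub_zero]; exact zero_mem _⟩
  choose c c1 c2 using u3
  simp only [] at c2
  let ρ : List G → G →₀ ℂ := fun i => lc (ind i) (M.bd (Ω 1))
  let C : List G → List G → G →₀ ℂ := fun i l => ∑ h ∈ (ρ i).support, ρ i h • c h l
  have eC : ∀ i, Equi G (C i) := fun i => Equi.sum _ fun h _ => (c1 h).smul _
  have eD : ∀ i, Equi G fun l => lc (ind i) (T l - M.bd (s' l)) - C i l := fun i =>
    ((hT.equi_sub a1).comp (equi_ind i)).sub (eC i)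
  have b1 : ∀ i, ∀ l : List G, l.length = n + 2 →
      (∑ h ∈ (ρ i).support, ρ i h * ((w h : ℤ) : ℂ)) • u l =
        lc (fun l => lc (ind i) (T l - M.bd (s' l)) - C i l) (bdL ℂ l) := fun i l hl => by
    rw [lc_sub, ← map_lc, lc_sub_bd hT (E := fun l => lc Ω (u l)) (a4 l hl), map_lc, map_lc,
      lc_swap (e := fun g => lc (ind i) (M.bd (Ω g))) ((eΩ.comp equi_bdL).comp (equi_ind i)),
      lc_def, lc_sum, ← Finset.sum_sub_distrib,
      Finset.sum_smul]
    refine Finset.sum_congr rfl fun h _ => ?_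
    rw [lc_smul, ← c2 h l hl, ← smul_sub, sub_sub_cancel, mul_smul]
  have b2 : ∀ i, ∑ h ∈ (ρ i).support, ρ i h * ((w h : ℤ) : ℂ) = 0 := fun i => by
    rcases u5 with u5 | rfl
    · exact u5 _ ⟨_, eD i, b1 i⟩
    · simp [ρ, Ω]
  obtain ⟨s'', d1, -, d3⟩ := solve hT a2 (f := C) fun i => hD.1 n (by omega) _ (eD i)
    fun l hl => by rw [← b1 i l hl, b2, zero_smul]
  refine ⟨LinearMap.pi fun h => mu G ∘ₗ bc G (c h), fun z hz => ⟨fun h k => ?_, ?_⟩⟩
  · have := (hD.1 n (by omega) (fun l => c (h * k) l - ((w h : ℤ) : ℂ) • c k l - rt k (c h l))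
      (((c1 _).sub ((c1 k).smul _)).sub ((c1 h).rt k)) fun l hl => by
        rw [lc_sub, lc_sub, lc_smul, ← map_lc, ← c2 _ l hl, ← c2 _ l hl, ← c2 _ l hl, map_sub,
          rt_rt, map_smul, map_mul, Units.val_mul, Int.cast_mul, mul_smul, smul_sub]
        abel).mu_bc hz
    rwa [bc_sub, bc_sub, bc_smul, map_sub, map_sub, mu_bc_rt, LinearMap.map_smul_of_tower,
      sub_sub, sub_eq_zero] at this
  · rintro ⟨a, ha⟩
    refine bdy_of d1 d3 hz ⟨a • up (Ω 1), ?_⟩
    have h0 : Sup (Sm R (n + 1)) (M.bd (Ω 1)) :=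
      sup_bd (Box.sup_sum fun j hj => Box.sup_smul _ (sup_rc hj 1))
    have h1 : bc G (bdL ℂ) (up (Ω 1)) = ∑ i ∈ reps R n, bc G (rc i) (up (ρ i)) := by
      simp only [bc_up, ← map_sum, ρ]
      rw [decomp h0]
      rfl
    rw [map_smul, h1, bc_sum, Finset.smul_sum, ← Finset.sum_sub_distrib]
    refine Submodule.sum_mem _ fun i _ => ?_
    have h2 : mu G (bc G (C i) z - a • up (ρ i)) = 0 := by
      have h3 : ∀ h, mu G (bc G (c h) z) = a * lam h - ((w h : ℤ) : ℂ) • a := fun h =>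
        (congrFun ha h).symm.trans (inn_apply w a h)
      rw [map_sub, bc_sum, map_sum, map_smul, mu_up, Finset.smul_sum]
      simp only [bc_smul, LinearMap.map_smul_of_tower, h3, smul_sub, smul_smul, smul_eq_mul,
        mul_smul_comm, Finset.sum_sub_distrib]
      rw [← Finset.sum_smul, b2, zero_smul, sub_zero, sub_self]
    have := (equi_rc i).bc_mu (bc G (C i) z - a • up (ρ i))
    rwa [h2, zero_smul, sub_zero, map_sub, map_smul, bc_bc] at this

end Vale.Agent.P239Z
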