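import Vale.Agent.P239.H269.Inf

set_option linter.all false

/-!
# Equivariant maps between free modules on sets with a group action, base change
-/

namespace Vale.Agent.P239Z

open Finsupp Vale.Agent.P239

variable {G : Type*} [Group G] {S T U : Type*} [MulAction G S] [MulAction G T] [MulAction G U]

/-- the diagonal action on lists -/
scoped instance listAct {X : Type*} [MulAction G X] : MulAction G (List X) where
  smul g l := l.map (g • ·)
  one_smul l := by
    change l.map _ = l
    simp
  mul_smul g h l := by
    change l.map _ = (l.map _).map _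
    simp [mul_smul]

theorem smul_list {X : Type*} [MulAction G X] (g : G) (l : List X) : g • l = l.map (g • ·) := rfl

theorem length_smul {X : Type*} [MulAction G X] (g : G) (l : List X) :
    (g • l).length = l.length := List.length_map _

/-- linear extension -/
noncomputable abbrev lc {M : Type*} [AddCommGroup M] [Module ℂ M] (u : S → M) :
    (S →₀ ℂ) →ₗ[ℂ] M := linearCombination ℂ u

section lc

variable {M M' : Type*} [AddCommGroup M] [Module ℂ M] [AddCommGroup M'] [Module ℂ M']
omit [MulAction G S] [MulAction G T] [MulAction G U]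

theorem lc_single (u : S → M) (s : S) (r : ℂ) : lc u (single s r) = r • u s :=
  linearCombination_single ℂ r s

theorem map_lc (φ : M →ₗ[ℂ] M') (u : S → M) (c : S →₀ ℂ) :
    φ (lc u c) = lc (fun l => φ (u l)) c := by
  simp only [lc, linearCombination_apply, Finsupp.sum, map_sum, map_smul]

theorem lc_add (u v : S → M) (c : S →₀ ℂ) : lc (fun l => u l + v l) c = lc u c + lc v c := by
  simp only [lc, linearCombination_apply, smul_add, Finsupp.sum_add]

theorem lc_sub (u v : S → M) (c : S →₀ ℂ) : lc (fun l => u l - v l) c = lc u c - lc v c := by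
  simp only [lc, linearCombination_apply, smul_sub, Finsupp.sum_sub]

theorem lc_smul (z : ℂ) (u : S → M) (c : S →₀ ℂ) : lc (fun l => z • u l) c = z • lc u c := by
  simp only [lc, linearCombination_apply, Finsupp.sum, Finset.smul_sum, smul_comm z]

theorem lc_zero (c : S →₀ ℂ) : lc (fun _ => (0 : M)) c = 0 := by
  simp [lc, linearCombination_apply]

theorem lc_sum {ι : Type*} (s : Finset ι) (u : ι → S → M) (c : S →₀ ℂ) :
    lc (fun l => ∑ i ∈ s, u i l) c = ∑ i ∈ s, lc (u i) c := by
  simp only [lc, linearCombination_apply, Finsupp.sum, Finset.smul_sum]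
  exact Finset.sum_comm

theorem lc_self (c : S →₀ ℂ) : lc (fun l => single l (1 : ℂ)) c = c := by
  induction c using Finsupp.induction_linear with
  | zero => simp
  | add a b ha hb => rw [map_add, ha, hb]
  | single l r => rw [lc_single, smul_single, smul_eq_mul, mul_one]

theorem lc_congr {u v : S → M} {c : S →₀ ℂ} (h : ∀ s ∈ c.support, u s = v s) :
    lc u c = lc v c := by
  rw [lc, linearCombination_apply, linearCombination_apply]
  exact Finset.sum_congr rfl fun l hl => by simp only [h l hl]

theorem lc_apply (u : S → T →₀ ℂ) (c : S →₀ ℂ) (t : T) : lc u c t = lc (fun s => u s t) c :=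
  map_lc (lapply t) u c

end lc

/-- translation of chains -/
noncomputable def act (g : G) : (S →₀ ℂ) →ₗ[ℂ] (S →₀ ℂ) := lmapDomain ℂ ℂ (g • ·)

theorem act_single (g : G) (s : S) (r : ℂ) : act g (single s r) = single (g • s) r := by
  simp [act]

theorem act_act (g h : G) (c : S →₀ ℂ) : act g (act h c) = act (g * h) c := by
  induction c using Finsupp.induction_linear with
  | zero => simp
  | add a b ha hb => simp only [map_add, ha, hb]
  | single l r => simp only [act_single, mul_smul]

theorem act_one (c : S →₀ ℂ) : act (1 : G) c = c := by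
  induction c using Finsupp.induction_linear with
  | zero => simp
  | add a b ha hb => simp only [map_add, ha, hb]
  | single l r => simp only [act_single, one_smul]

theorem act_apply (g : G) (c : S →₀ ℂ) (s : S) : act g c s = c (g⁻¹ • s) := by
  conv_lhs => rw [← smul_inv_smul g s]
  exact mapDomain_apply (MulAction.injective g) c _

theorem act_eq_pf {X : Type*} [MulAction G X] (g : G) (c : M.Ch ℂ X) :
    act g c = M.pf (g • ·) c := rfl

theorem lc_act {M : Type*} [AddCommGroup M] [Module ℂ M] (u : S → M) (g : G) (c : S →₀ ℂ) :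
    lc u (act g c) = lc (fun s => u (g • s)) c := by
  induction c using Finsupp.induction_linear with
  | zero => simp
  | add a b ha hb => simp only [map_add, ha, hb]
  | single l r => simp only [act_single, lc_single]

variable (G) in
/-- equivariant maps -/
def Equi (f : S → T →₀ ℂ) : Prop := ∀ (g : G) s, f (g • s) = act g (f s)

namespace Equi

variable {f f' : S → T →₀ ℂ}

theorem lc_act (h : Equi G f) (g : G) (c : S →₀ ℂ) : lc f (act g c) = act g (lc f c) := by
  rw [P239Z.lc_act, map_lc]
  exact lc_congr fun s _ => h g s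

theorem comp {e : T → U →₀ ℂ} (h : Equi G f) (he : Equi G e) : Equi G fun s => lc e (f s) :=
  fun g s => by simp only [h g s, he.lc_act]

theorem add (h : Equi G f) (h' : Equi G f') : Equi G fun s => f s + f' s := fun g s => by
  simp only [h g s, h' g s, map_add]

theorem sub (h : Equi G f) (h' : Equi G f') : Equi G fun s => f s - f' s := fun g s => by
  simp only [h g s, h' g s, map_sub]

theorem smul (h : Equi G f) (z : ℂ) : Equi G fun s => z • f s := fun g s => by
  simp only [h g s, map_smul]

theorem sum {ι : Type*} (t : Finset ι) {f : ι → S → T →₀ ℂ} (h : ∀ i ∈ t, Equi G (f i)) :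
    Equi G fun s => ∑ i ∈ t, f i s := fun g s => by
  simp only [map_sum]
  exact Finset.sum_congr rfl fun i hi => h i hi g s

end Equi

theorem equi_zero : Equi G fun _ : S => (0 : T →₀ ℂ) := fun g s => by simp

theorem equi_single {f : S → T} (h : ∀ (g : G) s, f (g • s) = g • f s) :
    Equi G fun s => single (f s) (1 : ℂ) := fun g s => by simp only [h, act_single]

theorem equi_bdL {X : Type*} [MulAction G X] : Equi G (M.bdL ℂ : List X → M.Ch ℂ X) :=
  fun g l => (M.pf_bdL _ l).symm

theorem bd_act {X : Type*} [MulAction G X] (g : G) (c : M.Ch ℂ X) :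
    M.bd (act g c) = act g (M.bd c) := M.bd_pf _ c

open Classical in
/-- the equivariant map with prescribed values on representatives -/
noncomputable def eqv (D : S → Prop) (κ : S → G) (w : S → T →₀ ℂ) (s : S) : T →₀ ℂ :=
  if D s then act (κ s) (w ((κ s)⁻¹ • s)) else 0

theorem eqv_equi {D : S → Prop} {κ : S → G} (hD : ∀ (g : G) s, D s → D (g • s))
    (hκ : ∀ (g : G) s, D s → κ (g • s) = g * κ s) (w : S → T →₀ ℂ) : Equi G (eqv D κ w) :=
  fun g s => by
    by_cases h : D s
    · rw [eqv, eqv, if_pos h, if_pos (hD g s h), hκ g s h, act_act, mul_inv_rev, mul_smul,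
        inv_smul_smul]
    · rw [eqv, eqv, if_neg h, if_neg, map_zero]
      intro h'
      have := hD g⁻¹ _ h'
      rw [inv_smul_smul] at this
      exact h this

/-- **equivariant choice** -/
theorem exists_equi {D : S → Prop} {κ : S → G} (hD : ∀ (g : G) s, D s → D (g • s))
    (hκ : ∀ (g : G) s, D s → κ (g • s) = g * κ s) {P : S → (T →₀ ℂ) → Prop}
    (hP : ∀ (g : G) s w, D s → κ s = 1 → P s w → P (g • s) (act g w))
    (ex : ∀ s, D s → κ s = 1 → ∃ w, P s w) :
    ∃ f : S → T →₀ ℂ, Equi G f ∧ (∀ s, D s → P s (f s)) ∧ ∀ s, ¬D s → f s = 0 := by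
  choose! w hw using ex
  refine ⟨eqv D κ w, eqv_equi hD hκ w, fun s hs => ?_, fun s hs => if_neg hs⟩
  have h1 : κ ((κ s)⁻¹ • s) = 1 := by rw [hκ _ _ hs, inv_mul_cancel]
  have := hP (κ s) _ _ (hD _ _ hs) h1 (hw _ (hD _ _ hs) h1)
  rwa [smul_inv_smul, ← show eqv D κ w s = _ from if_pos hs] at this

/-! ### base change to the group von Neumann algebra -/

/-- extension of coefficients -/
noncomputable def up : (S →₀ ℂ) →ₗ[ℂ] (S →₀ VN G) :=
  mapRange.linearMap (Algebra.linearMap ℂ (VN G))

omit [MulAction G S] in
theorem up_single (s : S) (r : ℂ) : (up (single s r) : S →₀ VN G) = r • single s 1 := by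
  rw [up, mapRange.linearMap_apply, mapRange_single, smul_single, Algebra.linearMap_apply,
    Algebra.algebraMap_eq_smul_one]

variable (G) in
/-- base change of a map -/
noncomputable def bc (f : S → T →₀ ℂ) : (S →₀ VN G) →ₗ[VN G] (T →₀ VN G) :=
  linearCombination (VN G) fun s => up (f s)

section bc
omit [MulAction G S] [MulAction G T] [MulAction G U]

theorem bc_single (f : S → T →₀ ℂ) (s : S) (a : VN G) : bc G f (single s a) = a • up (f s) :=
  linearCombination_single _ _ _

theorem bc_up (f : S → T →₀ ℂ) (c : S →₀ ℂ) : bc G f (up c) = up (lc f c) := by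
  induction c using Finsupp.induction_linear with
  | zero => simp
  | add a b ha hb => simp only [map_add, ha, hb]
  | single l r =>
    rw [up_single, lc_single, LinearMap.map_smul_of_tower, bc_single, one_smul, map_smul]

theorem bc_bc (e : T → U →₀ ℂ) (f : S → T →₀ ℂ) (z : S →₀ VN G) :
    bc G e (bc G f z) = bc G (fun s => lc e (f s)) z := by
  induction z using Finsupp.induction_linear with
  | zero => simp
  | add a b ha hb => simp only [map_add, ha, hb]
  | single l r => rw [bc_single, bc_single, map_smul, bc_up]

theorem bc_congr {f f' : S → T →₀ ℂ} {z : S →₀ VN G} (h : ∀ s ∈ z.support, f s = f' s) :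
    bc G f z = bc G f' z := by
  rw [bc, bc, linearCombination_apply, linearCombination_apply]
  exact Finset.sum_congr rfl fun l hl => by simp only [h l hl]

theorem bc_add (f f' : S → T →₀ ℂ) (z : S →₀ VN G) :
    bc G (fun s => f s + f' s) z = bc G f z + bc G f' z := by
  simp only [bc, linearCombination_apply, map_add, smul_add, Finsupp.sum_add]

theorem bc_sub (f f' : S → T →₀ ℂ) (z : S →₀ VN G) :
    bc G (fun s => f s - f' s) z = bc G f z - bc G f' z := by
  simp only [bc, linearCombination_apply, map_sub, smul_sub, Finsupp.sum_sub]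

theorem bc_smul (r : ℂ) (f : S → T →₀ ℂ) (z : S →₀ VN G) :
    bc G (fun s => r • f s) z = r • bc G f z := by
  induction z using Finsupp.induction_linear with
  | zero => simp
  | add a b ha hb => simp only [map_add, ha, hb, smul_add]
  | single l a => rw [bc_single, bc_single, map_smul, smul_comm]

theorem bc_sum {ι : Type*} (t : Finset ι) (f : ι → S → T →₀ ℂ) (z : S →₀ VN G) :
    bc G (fun s => ∑ i ∈ t, f i s) z = ∑ i ∈ t, bc G (f i) z := by
  simp only [bc, linearCombination_apply, Finsupp.sum, map_sum, Finset.smul_sum]
  exact Finset.sum_comm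

theorem bc_zero (z : S →₀ VN G) : bc G (fun _ => (0 : T →₀ ℂ)) z = 0 := by
  simp [bc, linearCombination_apply]

theorem bc_id (z : S →₀ VN G) : bc G (fun s => single s 1) z = z := by
  induction z using Finsupp.induction_linear with
  | zero => simp
  | add a b ha hb => simp only [map_add, ha, hb]
  | single l a => rw [bc_single, up_single, one_smul, smul_single, smul_eq_mul, mul_one]

theorem support_up (c : S →₀ ℂ) : (up c : S →₀ VN G).support ⊆ c.support :=
  support_mapRange (hf := map_zero _)

theorem support_bc {f : S → T →₀ ℂ} {z : S →₀ VN G} {t : T} (ht : t ∈ (bc G f z).support) :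
    ∃ s ∈ z.support, t ∈ (f s).support := by
  classical
  by_contra h
  push Not at h
  refine mem_support_iff.1 ht ?_
  rw [bc, linearCombination_apply, Finsupp.sum, finsetSum_apply]
  refine Finset.sum_eq_zero fun s hs => ?_
  rw [Finsupp.smul_apply, notMem_support_iff.1 fun h' => h s hs (support_up _ h'), smul_zero]

end bc

variable (G S) in
/-- the relations of the tensor product -/
noncomputable abbrev rl : Submodule (VN G) (S →₀ VN G) := tensorRel (lam (G := G)) S

theorem up_act (g : G) (c : S →₀ ℂ) : up (act g c) - lam g • up c ∈ rl G S := by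
  induction c using Finsupp.induction_linear with
  | zero => simp
  | add a b ha hb =>
    have := (rl G S).add_mem ha hb
    simp only [map_add, smul_add]
    rwa [add_sub_add_comm]
  | single l r =>
    rw [act_single, up_single, up_single, smul_comm, ← smul_sub]
    refine (rl G S).smul_of_tower_mem r (Submodule.subset_span ⟨g, l, 1, ?_⟩)
    rw [smul_single, smul_eq_mul, mul_one, one_mul]

theorem Equi.bc_rl {f : S → T →₀ ℂ} (h : Equi G f) {z : S →₀ VN G} (hz : z ∈ rl G S) :
    bc G f z ∈ rl G T := by
  refine (show rl G S ≤ (rl G T).comap (bc G f) from Submodule.span_le.2 ?_) hz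
  rintro _ ⟨g, s, a, rfl⟩
  change bc G f _ ∈ rl G T
  rw [map_sub, bc_single, bc_single, h, mul_smul, ← smul_sub]
  exact (rl G T).smul_mem a (up_act g _)

variable (G) in
/-- the identification of the tensor product of the free module of rank one -/
noncomputable def mu : (G →₀ VN G) →ₗ[VN G] VN G := linearCombination (VN G) lam

theorem mu_single (g : G) (a : VN G) : mu G (single g a) = a * lam g :=
  linearCombination_single _ _ _

theorem mu_rl {z : G →₀ VN G} (hz : z ∈ rl G G) : mu G z = 0 := by
  refine (show rl G G ≤ LinearMap.ker (mu G) from Submodule.span_le.2 ?_) hz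
  rintro _ ⟨g, s, a, rfl⟩
  change mu G _ = 0
  rw [map_sub, mu_single, mu_single, smul_eq_mul, lam_mul, mul_assoc, sub_self]

theorem Equi.bc_mu {f : G → T →₀ ℂ} (h : Equi G f) (x : G →₀ VN G) :
    bc G f x - mu G x • up (f 1) ∈ rl G T := by
  induction x using Finsupp.induction_linear with
  | zero => simp
  | add a b ha hb =>
    have := (rl G T).add_mem ha hb
    simp only [map_add, add_smul]
    rwa [add_sub_add_comm]
  | single g a =>
    have := h g 1
    rw [smul_eq_mul, mul_one] at this
    rw [bc_single, mu_single, this, mul_smul, ← smul_sub]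
    exact (rl G T).smul_mem a (up_act g _)

/-- right translation -/
noncomputable def rt (h : G) : (G →₀ ℂ) →ₗ[ℂ] (G →₀ ℂ) := lmapDomain ℂ ℂ (· * h)

theorem rt_single (h g : G) (r : ℂ) : rt h (single g r) = single (g * h) r := by simp [rt]

theorem rt_apply (h : G) (c : G →₀ ℂ) (g : G) : rt h c g = c (g * h⁻¹) := by
  conv_lhs => rw [← inv_mul_cancel_right g h]
  exact mapDomain_apply (mul_left_injective h) c _

theorem rt_rt (h k : G) (c : G →₀ ℂ) : rt k (rt h c) = rt (h * k) c := by
  ext g
  simp only [rt_apply, mul_inv_rev, mul_assoc]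

theorem equi_rt (h : G) : Equi G fun g : G => single (g * h) (1 : ℂ) :=
  equi_single fun g s => mul_assoc g s h

theorem rt_eq (h : G) (c : G →₀ ℂ) : rt h c = lc (fun g : G => single (g * h) (1 : ℂ)) c := by
  conv_lhs => rw [← lc_self c, map_lc]
  simp only [rt_single]

theorem Equi.rt {f : S → G →₀ ℂ} (hf : Equi G f) (h : G) : Equi G fun s => rt h (f s) := by
  simp only [rt_eq]
  exact hf.comp (equi_rt h)

omit [MulAction G S] in
theorem mu_bc_rt (f : S → G →₀ ℂ) (h : G) (z : S →₀ VN G) :
    mu G (bc G (fun s => rt h (f s)) z) = mu G (bc G f z) * lam h := by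
  simp only [rt_eq]
  rw [← bc_bc]
  generalize bc G f z = x
  induction x using Finsupp.induction_linear with
  | zero => simp
  | add a b ha hb => simp only [map_add, ha, hb, add_mul]
  | single g a =>
    rw [bc_single, up_single, one_smul, smul_single, mu_single, mu_single, lam_mul, smul_eq_mul,
      mul_one, mul_assoc]

end Vale.Agent.P239Z
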