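import Vale.Agent.P239Z.Int

set_option linter.all false

/-!
# The local degree; orientations of contractible manifolds
-/

namespace Vale.Agent.P239Z

open Topology Set Filter Metric Vale.Agent.P291Z unitInterval

variable {n : ℕ}

theorem smul_tn_inj {z w : ℂ} (h : z • cls (tn n) = w • cls (tn n)) : z = w := by
  rw [← sub_eq_zero, ← sub_smul, smul_eq_zero] at h
  exact sub_eq_zero.1 (h.resolve_right (tn_gen n).ne)

theorem exists_int_deg {e : E n → E n} (he : IsOpenEmbedding e) :
    ∃ m : ℤ, Hc.push he (cls (tn n)) = (m : ℂ) • cls (tn n) := by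
  obtain ⟨r, hr⟩ := (Taut.of_isOpenEmbedding he).retr.resolve_left (not_isEmpty_of_nonempty _)
  obtain ⟨K, hK, h0, hKe⟩ := exists_compact_subset he.isOpen_range (mem_range_self (0 : E n))
  have hK0 : K ∈ 𝓝 (e 0) := mem_interior_iff_mem_nhds.1 h0
  have hs : supp (cut K (pull r (tn n))) ⊆ K := (supp_cut _ _).trans
    (inter_subset_left.trans hK.isClosed.closure_subset)
  have hb : cut K (pull r (tn n)) ∈ Zc (E n) := ⟨isCompact_supp_of_subset hK hs,
    supp_eq_empty.2 fun x => by
      by_cases hx : x ∈ range e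
      · obtain ⟨v, rfl⟩ := hx
        by_cases hv : v = 0
        · subst hv
          have := Van.δ (cut_in hK0 (pull r (tn n)))
          rw [map_sub, δ_pull, δ_tn, map_zero, zero_sub] at this
          exact neg_neg (δ (cut K (pull r (tn n)))) ▸ (Van _).neg_mem this
        · exact Van.δ (Van.cut (Van.pull (hr.cont v) (by rw [hr.left]; exact tn_van hv)) K)
      · exact Van.δ fun h => hx (hKe (hs h))⟩
  have h1 : cls (pull e (cut K (pull r (tn n)))) = cls (tn n) := by
    rw [pull_cut, pull_pull, show r ∘ e = id from funext hr.left, pull_id]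
    refine (cls_eq_of_null (sub_cut_null fun x hx => ?_)).symm
    rw [show x = 0 from tn_supp n hx]
    exact he.continuous.continuousAt hK0
  obtain ⟨z, hz⟩ := (tn_gen n).span (cls (cut K (pull r (tn n))))
  obtain ⟨m, rfl⟩ := int_deg n _ hb (((tn_int n).pull r).cut K) z hz
  exact ⟨m, by rw [← hz, ← h1, Hc.push_cls he hb (hs.trans hKe)]⟩

theorem univBall_eq (c : E n) {r : ℝ} (hr : 0 < r) (v : E n) :
    OpenPartialHomeomorph.univBall c r v = c + (r * (√(1 + ‖v‖ ^ 2))⁻¹) • v := by
  rw [OpenPartialHomeomorph.univBall, dif_pos hr, mul_smul, add_comm]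
  rfl

theorem univBall_emb (c : E n) (r : ℝ) :
    IsOpenEmbedding (OpenPartialHomeomorph.univBall c r : E n → E n) :=
  OpenPartialHomeomorph.to_isOpenEmbedding _ (OpenPartialHomeomorph.univBall_source c r)

theorem univBall_range (c : E n) {r : ℝ} (hr : 0 < r) :
    range (OpenPartialHomeomorph.univBall c r : E n → E n) = ball c r := by
  rw [← OpenPartialHomeomorph.univBall_target c hr,
    ← OpenPartialHomeomorph.image_source_eq_target, OpenPartialHomeomorph.univBall_source,
    image_univ]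

theorem push_univBall (c : E n) {r : ℝ} (hr : 0 < r) :
    Hc.push (univBall_emb c r) (cls (tn n)) = cls (tn n) := by
  have hz : supp (δ (tn n)) = ∅ := (tn_gen n).mem.2
  have hp : IsPr fun v : E n => v - c := IsPr.of_homeomorph (Homeomorph.subRight c)
  have h1 : cls (pull id (tn n)) = cls (pull (fun v : E n => v - c) (tn n)) := by
    refine cls_pull_eq_of_homotopy (h := fun q : I × E n => q.2 - (q.1 : ℝ) • c) (by fun_prop) hz
      ?_ (fun x => by simp) fun x => by simp
    refine (isCompact_range (f := fun s : I => (s, (s : ℝ) • c)) (by fun_prop)).of_isClosed_subset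
      ((isClosed_supp _).preimage (by fun_prop)) fun q hq => ⟨q.1, ?_⟩
    have : q.2 - (q.1 : ℝ) • c = 0 := tn_supp n hq
    exact Prod.ext rfl (sub_eq_zero.1 this).symm
  have hpos : ∀ v : E n, 0 < r * (√(1 + ‖v‖ ^ 2))⁻¹ := fun v => by positivity
  have h2 : cls (pull id (tn n)) =
      cls (pull (fun v : E n => (r * (√(1 + ‖v‖ ^ 2))⁻¹) • v) (tn n)) := by
    have hc : Continuous fun q : I × E n =>
        ((1 - (q.1 : ℝ)) + (q.1 : ℝ) * (r * (√(1 + ‖q.2‖ ^ 2))⁻¹)) • q.2 := by
      have h0 : Continuous fun q : I × E n => (√(1 + ‖q.2‖ ^ 2))⁻¹ :=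
        Continuous.inv₀ (by fun_prop) fun q => by positivity
      fun_prop
    refine cls_pull_eq_of_homotopy hc hz ?_ (fun x => by simp) fun x => by simp
    refine (isCompact_range (f := fun s : I => (s, (0 : E n))) (by fun_prop)).of_isClosed_subset
      ((isClosed_supp _).preimage hc) fun q hq => ⟨q.1, ?_⟩
    have h3 : ((1 - (q.1 : ℝ)) + (q.1 : ℝ) * (r * (√(1 + ‖q.2‖ ^ 2))⁻¹)) • q.2 = 0 :=
      tn_supp n hq
    have h4 : 0 < (1 - (q.1 : ℝ)) + (q.1 : ℝ) * (r * (√(1 + ‖q.2‖ ^ 2))⁻¹) := by
      have h5 := hpos q.2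
      have h6 := q.1.2.1
      have h7 := q.1.2.2
      rcases eq_or_lt_of_le h6 with h | h
      · rw [← h]; simp
      · have := mul_pos h h5
        linarith
    exact Prod.ext rfl ((smul_eq_zero.1 h3).resolve_left h4.ne').symm
  rw [pull_id] at h1 h2
  have h3 : pull (fun v : E n => (r * (√(1 + ‖v‖ ^ 2))⁻¹) • v) (tn n) =
      pull (OpenPartialHomeomorph.univBall c r) (pull (fun v : E n => v - c) (tn n)) := by
    rw [pull_pull]
    congr 2
    funext v
    simp [univBall_eq c hr]
  conv_lhs => rw [h2, h3]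
  rw [Hc.push_cls _ (hp.pull_Zc (tn_gen n).mem), ← h1]
  intro v hv
  have : v - c = 0 := tn_supp n (supp_pull hp.cont _ hv)
  rw [univBall_range c hr, sub_eq_zero.1 this]
  exact mem_ball_self hr

section charts

variable {X : Type} [TopologicalSpace X]

theorem comp_tr {i j : E n → X} (h : range i ⊆ range j) : j ∘ (Function.invFun j ∘ i) = i :=
  funext fun v => Function.invFun_eq (h (mem_range_self v))

theorem tr_emb {i j : E n → X} (hi : IsOpenEmbedding i) (hj : IsOpenEmbedding j)
    (h : range i ⊆ range j) : IsOpenEmbedding (Function.invFun j ∘ i) :=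
  IsOpenEmbedding.of_comp _ hj (by rwa [comp_tr h])

theorem exists_small {j : E n → X} (hj : IsOpenEmbedding j) {x : X} (hx : x ∈ range j) {U : Set X}
    (hU : U ∈ 𝓝 x) : ∃ i : E n → X, IsOpenEmbedding i ∧ x ∈ range i ∧ range i ⊆ U := by
  obtain ⟨v, rfl⟩ := hx
  obtain ⟨ε, hε, hb⟩ := Metric.mem_nhds_iff.1 (hj.continuous.continuousAt hU)
  refine ⟨j ∘ OpenPartialHomeomorph.univBall v ε, hj.comp (univBall_emb v ε),
    ⟨0, congrArg j (OpenPartialHomeomorph.univBall_apply_zero v ε)⟩, ?_⟩
  rintro _ ⟨w, rfl⟩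
  exact hb (univBall_range v hε ▸ mem_range_self w)

end charts

theorem push_congr {X : Type} [TopologicalSpace X] [T2Space X] [LocallyCompactSpace X]
    {e e' : E n → X} (he : IsOpenEmbedding e) (he' : IsOpenEmbedding e') (h : e = e') :
    Hc.push he = Hc.push he' := by subst h; rfl

theorem exists_deg {e : E n → E n} (he : IsOpenEmbedding e) :
    ∃ u : ℤˣ, Hc.push he (cls (tn n)) = ((u : ℤ) : ℂ) • cls (tn n) := by
  obtain ⟨ε, hε, hb⟩ := Metric.isOpen_iff.1 he.isOpen_range _ (mem_range_self 0)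
  rw [← univBall_range _ hε] at hb
  have he' := tr_emb (univBall_emb (e 0) ε) he hb
  obtain ⟨m, hm⟩ := exists_int_deg he
  obtain ⟨m', hm'⟩ := exists_int_deg he'
  have h1 := Hc.push_push he' he (cls (tn n))
  rw [hm', map_smul, hm, smul_smul, push_congr _ (univBall_emb (e 0) ε) (comp_tr hb),
    push_univBall _ hε] at h1
  have h2 : (m' : ℂ) * m = 1 := smul_tn_inj (h1.trans (one_smul _ _).symm)
  have h3 : m * m' = 1 := by rw [mul_comm]; exact_mod_cast h2
  exact ⟨Units.mkOfMulEqOne m m' h3, hm⟩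

open Classical in
/-- the local degree -/
noncomputable def dg (e : E n → E n) : ℤˣ :=
  if he : IsOpenEmbedding e then (exists_deg he).choose else 1

theorem dg_spec {e : E n → E n} (he : IsOpenEmbedding e) :
    Hc.push he (cls (tn n)) = ((dg e : ℤ) : ℂ) • cls (tn n) := by
  rw [dg, dif_pos he]
  exact (exists_deg he).choose_spec

theorem dg_comp {e e' : E n → E n} (he : IsOpenEmbedding e) (he' : IsOpenEmbedding e') :
    dg (e ∘ e') = dg e * dg e' := by
  have h1 := Hc.push_push he' he (cls (tn n))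
  rw [dg_spec, map_smul, dg_spec, dg_spec, smul_smul] at h1
  have h2 := smul_tn_inj h1
  refine Units.ext ?_
  rw [Units.val_mul, mul_comm]
  exact_mod_cast h2.symm

section ori

variable {X : Type} [TopologicalSpace X]

/-- the degree of `i` in the chart `j` -/
noncomputable def rd (j i : E n → X) : ℤˣ := dg (Function.invFun j ∘ i)

theorem rd_mul {i j k : E n → X} (hi : IsOpenEmbedding i) (hj : IsOpenEmbedding j)
    (hk : IsOpenEmbedding k) (h : range k ⊆ range i) (h' : range i ⊆ range j) :
    rd j k = rd j i * rd i k := by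
  rw [rd, rd, rd, ← dg_comp (tr_emb hi hj h') (tr_emb hk hi h), Function.comp_assoc, comp_tr h]

theorem rd_self {i : E n → X} (hi : IsOpenEmbedding i) : rd i i = 1 := by
  have := rd_mul hi hi hi subset_rfl subset_rfl
  exact (mul_eq_left.1 this.symm)

theorem push_rd [T2Space X] [LocallyCompactSpace X] {i j : E n → X} (hi : IsOpenEmbedding i)
    (hj : IsOpenEmbedding j) (h : range i ⊆ range j) :
    Hc.push hi (cls (tn n)) = ((rd j i : ℤ) : ℂ) • Hc.push hj (cls (tn n)) := by
  rw [← map_smul, rd, ← dg_spec (tr_emb hi hj h), Hc.push_push, push_congr _ hi (comp_tr h)]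

open Classical in
/-- the sign which compares two charts at a point -/
noncomputable def sg (j j' : E n → X) (y : X) : ℤˣ :=
  if h : ∃ i : E n → X, IsOpenEmbedding i ∧ y ∈ range i ∧ range i ⊆ range j ∩ range j' then
    rd j h.choose * rd j' h.choose else 1

theorem sg_eq {i j j' : E n → X} (hi : IsOpenEmbedding i) (hj : IsOpenEmbedding j)
    (hj' : IsOpenEmbedding j') {y : X} (hy : y ∈ range i) (h : range i ⊆ range j ∩ range j') :
    sg j j' y = rd j i * rd j' i := by
  have hex : ∃ i : E n → X, IsOpenEmbedding i ∧ y ∈ range i ∧ range i ⊆ range j ∩ range j' :=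
    ⟨i, hi, hy, h⟩
  rw [sg, dif_pos hex]
  obtain ⟨h1, h2, h3⟩ := hex.choose_spec
  generalize hex.choose = i₀ at h1 h2 h3
  obtain ⟨k, hk, -, hk'⟩ := exists_small hi hy
    (inter_mem (hi.isOpen_range.mem_nhds hy) (h1.isOpen_range.mem_nhds h2))
  have a1 := rd_mul hi hj hk (hk'.trans inter_subset_left) (h.trans inter_subset_left)
  have a2 := rd_mul hi hj' hk (hk'.trans inter_subset_left) (h.trans inter_subset_right)
  have a3 := rd_mul h1 hj hk (hk'.trans inter_subset_right) (h3.trans inter_subset_left)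
  have a4 := rd_mul h1 hj' hk (hk'.trans inter_subset_right) (h3.trans inter_subset_right)
  have a5 : rd j k * rd j' k = rd j i * rd j' i := by
    rw [a1, a2, mul_mul_mul_comm, Int.units_mul_self (rd i k), mul_one]
  rw [← a5, a3, a4, mul_mul_mul_comm, Int.units_mul_self (rd i₀ k), mul_one]

/-- **A contractible manifold is orientable.** -/
theorem exists_signs [ContractibleSpace X]
    (hch : ∀ x : X, ∃ j : E n → X, IsOpenEmbedding j ∧ x ∈ range j) :
    ∃ o : (E n → X) → ℤˣ, ∀ i j, IsOpenEmbedding i → IsOpenEmbedding j → range i ⊆ range j →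
      o i = rd j i * o j := by
  choose c hc hxc using hch
  have small : ∀ (i j k : E n → X), IsOpenEmbedding i → IsOpenEmbedding j → IsOpenEmbedding k →
      ∀ x ∈ range i ∩ range j ∩ range k, ∃ l : E n → X, IsOpenEmbedding l ∧ x ∈ range l ∧
        range l ⊆ range i ∩ range j ∩ range k := fun i j k hi hj hk x hx =>
    exists_small hi hx.1.1 (((hi.isOpen_range.inter hj.isOpen_range).inter
      hk.isOpen_range).mem_nhds hx)
  let Z : FiberBundleCore {j : E n → X // IsOpenEmbedding j} X ℤˣ :=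
    { baseSet := fun j => range j.1
      isOpen_baseSet := fun j => j.2.isOpen_range
      indexAt := fun x => ⟨c x, hc x⟩
      mem_baseSet_at := hxc
      coordChange := fun j j' y v => sg j.1 j'.1 y * v
      coordChange_self := fun j x hx v => by
        rw [sg_eq j.2 j.2 j.2 hx (subset_inter subset_rfl subset_rfl), Int.units_mul_self, one_mul]
      continuousOn_coordChange := fun j j' q hq => by
        obtain ⟨l, hl, hx, hl'⟩ := small _ _ _ j.2 j'.2 j'.2 q.1 ⟨hq.1, hq.1.2⟩
        refine ContinuousAt.continuousWithinAt (ContinuousAt.congr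
          (f := fun p : X × ℤˣ => rd j.1 l * rd j'.1 l * p.2) (by fun_prop) ?_)
        filter_upwards [continuous_fst.continuousAt (hl.isOpen_range.mem_nhds hx)] with p hp
        rw [sg_eq hl j.2 j'.2 hp (hl'.trans inter_subset_left)]
      coordChange_comp := fun i j k x hx v => by
        obtain ⟨l, hl, hx', hl'⟩ := small _ _ _ i.2 j.2 k.2 x hx
        have a1 : range l ⊆ range i.1 := fun y hy => (hl' hy).1.1
        have a2 : range l ⊆ range j.1 := fun y hy => (hl' hy).1.2
        have a3 : range l ⊆ range k.1 := fun y hy => (hl' hy).2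
        rw [sg_eq hl j.2 k.2 hx' (subset_inter a2 a3), sg_eq hl i.2 j.2 hx' (subset_inter a1 a2),
          sg_eq hl i.2 k.2 hx' (subset_inter a1 a3), ← mul_assoc]
        congr 1
        rw [mul_comm (rd i.1 l), mul_mul_mul_comm, Int.units_mul_self, one_mul, mul_comm] }
  have hcov : IsCoveringMap Z.proj :=
    IsFiberBundle.isCoveringMap (F := ℤˣ) fun x => ⟨Z.localTriv (Z.indexAt x), hxc x⟩
  obtain ⟨x₀, ⟨H⟩⟩ := id_nullhomotopic X
  let F := hcov.liftHomotopy H.symm.toContinuousMap
    (ContinuousMap.const X (⟨x₀, (1 : ℤˣ)⟩ : Z.TotalSpace)) fun a => H.symm.apply_zero a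
  have hF : ∀ x, Z.proj (F (1, x)) = x := fun x =>
    (congrFun (hcov.liftHomotopy_lifts H.symm.toContinuousMap _ _) (1, x)).trans
      (H.symm.apply_one x)
  let o' : {j : E n → X // IsOpenEmbedding j} → E n → ℤˣ := fun j v =>
    (Z.localTriv j (F (1, j.1 v))).2
  have ho : ∀ j v, o' j v = o' j 0 := fun j v => by
    refine PreconnectedSpace.constant inferInstance ?_
    refine continuous_snd.comp ((Z.localTriv j).continuousOn.comp_continuous
      (F.continuous.comp ((Continuous.prodMk_right 1).comp j.2.continuous)) fun w => ?_)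
    rw [(Z.localTriv j).mem_source]
    change Z.proj (F (1, j.1 w)) ∈ range j.1
    rw [hF]
    exact mem_range_self w
  classical
  refine ⟨fun j => if h : IsOpenEmbedding j then o' ⟨j, h⟩ 0 else 1, fun i j hi hj h => ?_⟩
  simp only [dif_pos hi, dif_pos hj]
  obtain ⟨v, hv⟩ := h (mem_range_self 0)
  rw [← ho ⟨j, hj⟩ v]
  have e := Z.coordChange_comp (Z.indexAt (i 0)) ⟨j, hj⟩ ⟨i, hi⟩ (i 0)
    ⟨⟨hxc _, v, hv⟩, mem_range_self 0⟩ (F (1, i 0)).2
  have e1 : o' ⟨i, hi⟩ 0 = Z.coordChange (Z.indexAt (i 0)) ⟨i, hi⟩ (i 0) (F (1, i 0)).2 := by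
    change Z.coordChange (Z.indexAt (Z.proj (F (1, i 0)))) ⟨i, hi⟩ (Z.proj (F (1, i 0))) _ = _
    rw [hF]
  have e2 : o' ⟨j, hj⟩ v = Z.coordChange (Z.indexAt (i 0)) ⟨j, hj⟩ (i 0) (F (1, i 0)).2 := by
    change Z.coordChange (Z.indexAt (Z.proj (F (1, j v)))) ⟨j, hj⟩ (Z.proj (F (1, j v)))
      (F (1, j v)).2 = _
    rw [hF, hv]
  rw [e1, e2, ← e]
  change sg j i (i 0) * _ = _
  rw [sg_eq hi hj hi (mem_range_self 0) (subset_inter h subset_rfl), rd_self hi, mul_one]

end ori

end Vale.Agent.P239Z
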