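import Vale.Agent.P239Z.Alg

set_option linter.all false

/-!
# The first cohomology with coefficients in the group von Neumann algebra has dimension zero
-/

namespace Vale.Agent.P239Z

open Vale.Agent.P239 Matrix
open scoped ENNReal InnerProductSpace

variable {G : Type*} [Group G]

theorem quoDim_eq_tdim {M : Type*} [AddCommGroup M] [Module (VN G) M] (Z B : Submodule (VN G) M) :
    quoDim (tr (G := G)) Z B = (vnData G).tdim (Z ⧸ B.submoduleOf Z) := by
  rw [quoDim, ← vnDim_eq_dimOf, vnDim_eq_tdim]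

theorem quoDim_le {M M' : Type*} [AddCommGroup M] [Module (VN G) M] [AddCommGroup M']
    [Module (VN G) M'] (f : M →ₗ[VN G] M') {Z B : Submodule (VN G) M} {Z' B' : Submodule (VN G) M'}
    (hZ : ∀ z ∈ Z, f z ∈ Z') (hB : ∀ z ∈ Z, f z ∈ B' → z ∈ B) :
    quoDim (tr (G := G)) Z B ≤ quoDim (tr (G := G)) Z' B' := by
  rw [quoDim_eq_tdim, quoDim_eq_tdim]
  let g := (B'.submoduleOf Z').mkQ ∘ₗ f.restrict hZ
  have h : LinearMap.ker g ≤ B.submoduleOf Z := fun z hz =>
    hB z z.2 ((Submodule.Quotient.mk_eq_zero (B'.submoduleOf Z')).1 hz)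
  exact ((vnData G).tdim_le_of_surjective (Submodule.factor h) (Submodule.factor_surjective h)).trans
    ((vnData G).tdim_mono ((LinearMap.ker g).liftQ g le_rfl)
      (LinearMap.ker_eq_bot.1 (Submodule.ker_liftQ_eq_bot _ _ _ le_rfl)))

variable {ι : Type} [Fintype ι] [DecidableEq ι]

theorem isProj_one : TraceData.IsProj (1 : Matrix ι ι (VN G)) := ⟨mul_one _, conjTranspose_one⟩

theorem Tr_one : (vnData G).Tr (1 : Matrix ι ι (VN G)) = Fintype.card ι := by
  simp [vnData_Tr, tr_one]

theorem tdim_free : (vnData G).tdim (ι → VN G) = ENNReal.ofReal (Fintype.card ι) := by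
  rw [← Tr_one (G := G)]
  refine le_antisymm (le_trans ?_ ((vnData G).tdim_eqLocus_le isProj_one))
    ((vnData G).le_tdim 1 isProj_one LinearMap.id fun x _ h => h)
  exact (vnData G).tdim_mono (LinearMap.codRestrict _ LinearMap.id fun x => vecMul_one x)
    fun x y h => congrArg Subtype.val h

theorem tdim_one : (vnData G).tdim (VN G) = 1 := by
  rw [← (vnData G).tdim_congr (LinearEquiv.funUnique Unit (VN G) (VN G)), tdim_free]
  simp

theorem vecMul_projMat (K : Submodule (VN G) (ι → VN G)) {x : ι → VN G}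
    (h : ∀ k ∈ K, ∑ i, k i * star (x i) = 0) : x ᵥ* projMat K = 0 := by
  have h1 : (UU K).starProjection (vec x) = 0 := by
    rw [Submodule.starProjection_apply_eq_zero_iff, UU, Submodule.orthogonal_closure]
    rintro _ ⟨k, hk, rfl⟩
    have := congrArg tr (h k hk)
    rw [tr_eq, tr_eq, map_sum, map_zero, ContinuousLinearMap.sum_apply, inner_sum] at this
    rw [PiLp.inner_apply]
    refine (Finset.sum_congr rfl fun i _ => ?_).trans (this.trans (inner_zero_right _))
    rw [vec_apply, vec_apply, VN.inner_star_left, map_mul]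
    rfl
  funext i
  refine star_injective (VN.op_ext_one ?_)
  have h2 := congrArg (prj ι G i) h1
  rw [← sum_inj (vec x), map_sum, map_sum] at h2
  rw [vecMul, dotProduct, star_sum, map_sum, ContinuousLinearMap.sum_apply, Pi.zero_apply,
    star_zero, map_zero]
  refine (Finset.sum_congr rfl fun j _ => ?_).trans h2
  rw [star_mul, ← conjTranspose_apply, projMat_star, map_mul]
  rfl

theorem psi_surj {s : ι → G} (hs : Subgroup.closure (Set.range s) = ⊤) :
    Function.Surjective (psi s) := by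
  have h1 : ∀ g, om (lamHom G) g ∈ LinearMap.range (psi s) := fun g => by
    have hg : g ∈ Subgroup.closure (Set.range s) := by rw [hs]; trivial
    induction hg using Subgroup.closure_induction with
    | mem x hx =>
      obtain ⟨i, rfl⟩ := hx
      exact ⟨Pi.single i 1, by simp [psi_apply, Pi.single_apply, ite_smul]⟩
    | one => rw [om_one]; exact zero_mem _
    | mul x y _ _ hx hy => rw [om_mul]; exact add_mem hx (Submodule.smul_mem _ _ hy)
    | inv x _ hx => rw [om_inv]; exact neg_mem (Submodule.smul_mem _ _ hx)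
  exact fun z => (Submodule.span_le.2 (Set.range_subset_iff.2 h1)) (om_span _ z)

theorem inn_mem (w : G →* ℤˣ) (a : VN G) : inn w a ∈ Der w := fun h k => by
  simp only [inn_apply, lam_mul, map_mul, Units.val_mul, Int.cast_mul, smul_sub, sub_mul, mul_smul,
    smul_mul_assoc, mul_assoc]
  abel

theorem der_dim_one [Infinite G] (hfg : Group.FG G) (h : vnDim G (K (lamHom G)) = 0) :
    quoDim (tr (G := G)) (Der (1 : G →* ℤˣ)) (LinearMap.range (inn (1 : G →* ℤˣ))) = 0 := by
  classical
  obtain ⟨S, hS⟩ := Group.fg_def.1 hfg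
  let s : Fin S.card → G := fun i => S.equivFin.symm i
  have hs : Subgroup.closure (Set.range s) = ⊤ := by
    rw [← hS]
    congr 1
    exact (S.equivFin.symm.surjective.range_comp Subtype.val).trans Subtype.range_coe
  let D := vnData G
  have hP : TraceData.IsProj (projMat (K2 s)) := ⟨projMat_mul _, projMat_star _⟩
  have h1 : D.tdim (K2 s) ≤ ENNReal.ofReal (D.Tr (projMat (K2 s))) :=
    (D.tdim_le_of_le (L := LinearMap.eqLocus (projMat (K2 s)).vecMulLinear LinearMap.id)
      fun k hk => projMat_vecMul _ hk).trans (D.tdim_eqLocus_le hP)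
  have h2 : D.tdim (Om (lamHom G)) ≤ 1 := by
    have := D.tdim_le_ker_add (P239.mu (lamHom G))
    rwa [← vnDim_eq_tdim G (LinearMap.ker _), h, zero_add, tdim_one] at this
  have h3 := (D.tdim_le_ker_add (psi s)).trans (add_le_add h1 h2)
  rw [tdim_free, ← ENNReal.ofReal_one, ← ENNReal.ofReal_add (D.Tr_proj_nonneg hP) zero_le_one,
    ENNReal.ofReal_le_ofReal_iff (add_nonneg (D.Tr_proj_nonneg hP) zero_le_one)] at h3
  have key : ∀ θ ∈ Der (1 : G →* ℤˣ), ∃ η : Om (lamHom G) →ₗ[VN G] VN G,
      ∀ g, η (om _ g) = star (θ g⁻¹) := fun θ hθ =>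
    ⟨Om.lift _ (fun g => star (θ g⁻¹)) fun a b => by
      rw [_root_.mul_inv_rev, hθ, star_add, star_mul, star_lam, inv_inv]
      simp, Om.lift_om _ _ _⟩
  let e : Der (1 : G →* ℤˣ) →ₗ[VN G] (Fin S.card → VN G) :=
    LinearMap.funLeft (VN G) (VN G) (fun i => (s i)⁻¹) ∘ₗ Submodule.subtype _
  have h4 : D.tdim (Der (1 : G →* ℤˣ)) ≤ 1 := by
    refine (D.tdim_mono (e.codRestrict (LinearMap.eqLocus (1 - projMat (K2 s)).vecMulLinear
      LinearMap.id) fun θ => ?_) ?_).trans ((D.tdim_eqLocus_le hP.one_sub).trans ?_)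
    · obtain ⟨η, hη⟩ := key θ θ.2
      change e θ ᵥ* _ = e θ
      rw [vecMul_sub, vecMul_one, vecMul_projMat, sub_zero]
      intro k hk
      have := congrArg η (show psi s k = 0 from hk)
      simp only [psi_apply, map_sum, map_smul, hη, map_zero] at this
      exact this
    · refine (injective_iff_map_eq_zero _).2 fun θ hθ => Subtype.ext (funext fun g => ?_)
      obtain ⟨η, hη⟩ := key θ θ.2
      obtain ⟨k, hk⟩ := psi_surj hs (om _ g⁻¹)
      have h5 : ∀ i, θ.1 (s i)⁻¹ = 0 := congrFun (congrArg Subtype.val hθ)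
      have := congrArg η hk
      simp only [psi_apply, map_sum, map_smul, hη, h5, star_zero, smul_zero,
        Finset.sum_const_zero, inv_inv] at this
      exact star_eq_zero.1 this.symm
    · rw [D.Tr_sub, Tr_one, ← ENNReal.ofReal_one]
      exact ENNReal.ofReal_le_ofReal (by linarith)
  have h5 : 1 ≤ D.tdim ((LinearMap.range (inn (1 : G →* ℤˣ))).submoduleOf
      (Der (1 : G →* ℤˣ))) := by
    rw [← tdim_one (G := G)]
    refine D.tdim_mono (((inn _).codRestrict _ (inn_mem 1)).codRestrict _ fun a => ⟨a, rfl⟩)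
      ((injective_iff_map_eq_zero _).2 fun a ha => eq_zero_of_inn (1 : G →* ℤˣ) fun g => ?_)
    exact sub_eq_zero.1 ((inn_apply _ a g).symm.trans
      (congrFun (congrArg (fun x => x.1.1) ha) g))
  rw [quoDim_eq_tdim]
  have h6 := (add_le_add_left h5 _).trans ((D.tdim_add_quot _).le.trans h4)
  rw [← add_zero 1, add_assoc, zero_add] at h6
  exact le_antisymm ((ENNReal.add_le_add_iff_left ENNReal.one_ne_top).1 h6) bot_le

theorem norm_sgn (u : ℤˣ) : ‖((u : ℤ) : ℂ)‖ = 1 := by
  rcases Int.units_eq_one_or u with h | h <;> simp [h]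

theorem sgn_mul_self (u : ℤˣ) : ((u : ℤ) : ℂ) * ((u : ℤ) : ℂ) = 1 := by
  rcases Int.units_eq_one_or u with h | h <;> simp [h]

variable (w : G →* ℤˣ)

/-- multiplication by a sign character -/
noncomputable def mulW : L2 G →L[ℂ] L2 G := LinearIsometry.toContinuousLinearMap
  { toFun := fun ξ => ⟨fun x => ((w x : ℤ) : ℂ) * ξ x, by
      have h := lp.memℓp ξ
      rw [memℓp_gen_iff (by norm_num)] at h
      have h2 : Memℓp (fun x => ((w x : ℤ) : ℂ) * ξ x) 2 := by
        rw [memℓp_gen_iff (by norm_num)]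
        simpa only [norm_mul, norm_sgn, one_mul] using h
      exact h2⟩
    map_add' := fun ξ η => lp.ext (funext fun x => mul_add _ _ _)
    map_smul' := fun c ξ => lp.ext (funext fun x => mul_left_comm _ _ _)
    norm_map' := fun ξ => by
      rw [lp.norm_eq_tsum_rpow (by norm_num), lp.norm_eq_tsum_rpow (by norm_num)]
      congr 2
      funext x
      change ‖((w x : ℤ) : ℂ) * ξ x‖ ^ _ = _
      rw [norm_mul, norm_sgn, one_mul] }

theorem mulW_apply (ξ : L2 G) (x : G) : mulW w ξ x = ((w x : ℤ) : ℂ) * ξ x := rfl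

theorem mulW_mulW (ξ : L2 G) : mulW w (mulW w ξ) = ξ := lp.ext (funext fun x => by
  rw [mulW_apply, mulW_apply, ← mul_assoc, sgn_mul_self, one_mul])

theorem mulW_rTrans (g : G) (ξ : L2 G) :
    mulW w (rTrans g ξ) = ((w g : ℤ) : ℂ) • rTrans g (mulW w ξ) := lp.ext (funext fun x => by
  rw [lp.coeFn_smul, Pi.smul_apply, mulW_apply, rTrans_apply, rTrans_apply, mulW_apply, map_mul,
    Units.val_mul, Int.cast_mul, smul_eq_mul]
  linear_combination (-((w x : ℤ) : ℂ) * ξ (x * g)) * sgn_mul_self (w g))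

/-- conjugation by the sign character -/
noncomputable def tw (a : VN G) : VN G := VN.mk (mulW w ∘L a.op ∘L mulW w) fun g v => by
  change mulW w (a.op (mulW w (rTrans g v))) = rTrans g (mulW w (a.op (mulW w v)))
  rw [mulW_rTrans, map_smul, map_smul, VN.op_comm, mulW_rTrans, smul_smul, sgn_mul_self, one_smul]

theorem tw_op (a : VN G) (v : L2 G) : (tw w a).op v = mulW w (a.op (mulW w v)) := rfl

theorem tw_tw (a : VN G) : tw w (tw w a) = a := VN.ext_op fun v => by
  rw [tw_op, tw_op, mulW_mulW, mulW_mulW]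

/-- conjugation as a ring automorphism -/
noncomputable def twE : VN G ≃+* VN G where
  toFun := tw w
  invFun := tw w
  left_inv := tw_tw w
  right_inv := tw_tw w
  map_mul' a b := VN.ext_op fun v => by
    simp only [map_mul, ContinuousLinearMap.mul_apply, tw_op, mulW_mulW]
  map_add' a b := VN.ext_op fun v => by
    simp only [map_add, ContinuousLinearMap.add_apply, tw_op]

theorem twE_smul (z : ℂ) (a : VN G) : twE w (z • a) = z • twE w a := VN.ext_op fun v => by
  change mulW w ((z • a).op (mulW w v)) = (z • tw w a).op v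
  simp only [map_smul, ContinuousLinearMap.smul_apply, tw_op]

theorem twE_lam (g : G) : twE w (lam g) = ((w g : ℤ) : ℂ) • lam g :=
  VN.ext_op fun v => lp.ext (funext fun x => by
    change ((w x : ℤ) : ℂ) * (((w (g⁻¹ * x) : ℤ) : ℂ) * v (g⁻¹ * x)) = ((w g : ℤ) : ℂ) * v (g⁻¹ * x)
    rw [map_mul, map_inv, Int.units_inv_eq_self, Units.val_mul, Int.cast_mul]
    linear_combination (((w g : ℤ) : ℂ) * v (g⁻¹ * x)) * sgn_mul_self (w x))

theorem tr_twE (a : VN G) : tr (twE w a) = tr a := by
  have h : mulW w (dl 1) = dl 1 := lp.ext (funext fun x => by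
    classical
    rw [mulW_apply, dl_apply]
    split_ifs with h <;> simp [h])
  rw [tr_eq, tr_eq, inner_dl, inner_dl]
  change (tw w a).op _ _ = _
  rw [tw_op, h, mulW_apply]
  simp

theorem der_dim [Infinite G] (hfg : Group.FG G) (h : vnDim G (K (lamHom G)) = 0) :
    quoDim (tr (G := G)) (Der w) (LinearMap.range (inn w)) = 0 := by
  have inv : ∀ (g : G) (a : VN G), ((w g : ℤ) : ℂ) • twE w (((w g : ℤ) : ℂ) • twE w a) = a :=
    fun g a => by
      rw [twE_smul, smul_smul, sgn_mul_self, one_smul]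
      exact tw_tw w a
  let φ : (G → VN G) ≃+ (G → VN G) :=
    { toFun := fun θ g => ((w g : ℤ) : ℂ) • twE w (θ g)
      invFun := fun θ g => ((w g : ℤ) : ℂ) • twE w (θ g)
      left_inv := fun θ => funext fun g => inv g _
      right_inv := fun θ => funext fun g => inv g _
      map_add' := fun a b => funext fun g => by simp only [Pi.add_apply, map_add, smul_add] }
  have hφ : ∀ θ g, φ θ g = ((w g : ℤ) : ℂ) • twE w (θ g) := fun _ _ => rfl
  have h1 : ∀ a, φ (inn w a) = inn (1 : G →* ℤˣ) (twE w a) := fun a => funext fun g => by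
    rw [hφ, inn_apply, inn_apply, map_sub, map_mul, twE_lam, twE_smul, mul_smul_comm, ← smul_sub,
      smul_smul, sgn_mul_self]
    simp
  rw [← der_dim_one hfg h]
  refine quoDim_eq_of_ringEquiv (twE w) (tr_twE w) φ (fun a θ => funext fun g => ?_)
    (fun θ => forall₂_congr fun g k => ?_) fun θ => ⟨?_, ?_⟩
  · simp only [hφ, Pi.smul_apply, smul_eq_mul, map_mul, mul_smul_comm]
  · have : (((1 : G →* ℤˣ) g : ℤ) : ℂ) • φ θ k + φ θ g * lam k =
        ((w (g * k) : ℤ) : ℂ) • twE w (((w g : ℤ) : ℂ) • θ k + θ g * lam k) := by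
      rw [hφ, hφ, map_add, map_mul (twE w), twE_lam, twE_smul, map_mul, Units.val_mul, Int.cast_mul,
        smul_add, smul_smul, mul_smul_comm, smul_smul, smul_mul_assoc, mul_right_comm,
        sgn_mul_self, smul_smul, mul_assoc _ ((w k : ℤ) : ℂ), sgn_mul_self]
      simp
    rw [this, hφ]
    refine ⟨fun h => ?_, fun h => by rw [h]⟩
    rw [← inv (g * k) (θ _), h, inv]
  · rintro ⟨a, ha⟩
    refine ⟨twE w a, φ.injective ?_⟩
    rw [h1, ← ha]
    exact congrArg _ (tw_tw w a)
  · rintro ⟨a, rfl⟩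
    exact ⟨_, (h1 a).symm⟩

end Vale.Agent.P239Z
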