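import Vale.Agent.P239Z.Base

set_option linter.all false

/-!
# Equivariant chain maps from the lists of the group to small lists; finite domination
-/

namespace Vale.Agent.P239Z

open Finsupp Vale.Agent.P239 Vale.Agent.P239.M Set Topology Filter unitInterval

variable {G : Type*} [Group G]

/-- the first entry -/
def hd (l : List G) : G := l.headD 1

theorem hd_smul (g : G) {l : List G} (hl : l ≠ []) : hd (g • l) = g * hd l := by
  cases l with
  | nil => exact absurd rfl hl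
  | cons x l => rfl

theorem hd_mem {l : List G} (hl : l ≠ []) : hd l ∈ l := by
  cases l with
  | nil => exact absurd rfl hl
  | cons x l => exact List.mem_cons_self

theorem ne_nil_of_length {X : Type*} {l : List X} {m : ℕ} (h : l.length = m + 1) : l ≠ [] := by
  rintro rfl
  simp at h

theorem smG_smul {R : Finset G} (g : G) {l : List G} (h : SmG R l) : SmG R (g • l) := by
  intro x hx y hy
  obtain ⟨x, hx', rfl⟩ := List.mem_map.1 hx
  obtain ⟨y, hy', rfl⟩ := List.mem_map.1 hy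
  simpa using h x hx' y hy'

theorem smG_sub {R : Finset G} {l l' : List G} (h : SmG R l) (h' : l'.Sublist l) : SmG R l' :=
  fun x hx y hy => h x (h'.subset hx) y (h'.subset hy)

section general

variable {Y : Type*} [MulAction G Y]

theorem sup_act {P Q : List Y → Prop} (g : G) {c : Ch ℂ Y} (hc : Sup P c)
    (h : ∀ l, P l → Q (g • l)) : Sup Q (act g c) := Sup.pf _ (hc.mono h)

omit [MulAction G Y] in
theorem bd_lc_bdL {X : Type*} {f : List X → Ch ℂ Y} {l : List X}
    (h : ∀ l' : List X, l'.Sublist l → l'.length + 1 = l.length →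
      M.bd (f l') = lc f (bdL ℂ l')) : M.bd (lc f (bdL ℂ l)) = 0 := by
  rw [map_lc, lc_congr (v := fun l' => lc f (bdL ℂ l'))
    fun l' hl' => h l' (sup_bdL l l' hl').1 (sup_bdL l l' hl').2, ← map_lc (lc f)]
  change lc f (M.bd (bdL ℂ l)) = 0
  rw [bd_bdL, map_zero]

omit [MulAction G Y] in
theorem lc_bd {M' : Type*} [AddCommGroup M'] [Module ℂ M'] (u : List Y → M') (c : Ch ℂ Y) :
    lc u (M.bd c) = lc (fun l => lc u (bdL ℂ l)) c := ext_bdL u c

theorem equi_if {f e : List G → Y →₀ ℂ} (hf : Equi G f) (he : Equi G e) (P : ℕ → Prop)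
    [DecidablePred P] : Equi G fun l => if P l.length then f l else e l := fun g l => by
  simp only [length_smul]
  split_ifs
  exacts [hf g l, he g l]

omit [MulAction G Y] in
theorem lc_if {X M : Type*} [AddCommGroup M] [Module ℂ M] (f e : List X → M) {D : ℕ} {l : List X}
    (hl : l.length ≤ D + 1) :
    lc (fun l => if l.length ≤ D then f l else e l) (bdL ℂ l) = lc f (bdL ℂ l) :=
  lc_congr fun l' hl' => if_pos (by have := (sup_bdL l l' hl').2; omega)

theorem equi_nil : Equi G fun l : List G => if l.length ≤ 0 then (single [] 1 : Ch ℂ Y) else 0 :=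
  fun g l => by
    simp only [length_smul]
    split_ifs
    · rw [act_single]; rfl
    · rw [map_zero]

end general

theorem exists_alpha (hc : ∀ i, CFillS ℂ G i) (D : ℕ) :
    ∃ (R : Finset G) (α : List G → Ch ℂ G), Equi G α ∧ α [] = single [] 1 ∧
      ∀ l : List G, l.length ≤ D → M.bd (α l) = lc α (bdL ℂ l) ∧
        Sup (fun l' => l'.length = l.length ∧ SmG R l') (α l) := by
  induction D with
  | zero =>
    refine ⟨∅, _, equi_nil, rfl, fun l hl => ?_⟩
    obtain rfl := List.eq_nil_of_length_eq_zero (Nat.le_zero.1 hl)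
    exact ⟨by simp [bd_single, bdL], Sup.single 1 ⟨rfl, fun x hx => by simp at hx⟩⟩
  | succ D ih =>
    obtain ⟨R, α, h1, h2, h3⟩ := ih
    obtain ⟨R', hR, hf⟩ := hc D R
    obtain ⟨e, e1, e2, -⟩ := exists_equi (G := G) (D := fun l : List G => l.length = D + 1)
      (κ := hd) (fun g l hl => (length_smul g l).trans hl)
      (fun g l hl => hd_smul g (ne_nil_of_length hl))
      (P := fun l w => M.bd w = lc α (bdL ℂ l) ∧
        Sup (fun l' => l'.length = D + 1 ∧ SmG R' l') w)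
      (fun g l w _ _ h => ⟨by rw [bd_act, h.1, equi_bdL g l, h1.lc_act],
        sup_act g h.2 fun l' hl' => ⟨(length_smul g l').trans hl'.1, smG_smul g hl'.2⟩⟩)
      fun l hl _ => hf _ (bd_lc_bdL fun l' _ h => (h3 l' (by omega)).1)
        ((sup_bdL l).ext fun l' hl' => (h3 l' (by omega)).2.mono fun l'' h => ⟨by omega, h.2⟩)
    refine ⟨R', _, equi_if h1 e1 (· ≤ D), by simpa using h2, fun l hl => ?_⟩
    rw [lc_if _ _ hl]
    by_cases h : l.length ≤ D
    · rw [if_pos h]
      exact ⟨(h3 l h).1, (h3 l h).2.mono fun l' h' => ⟨h'.1, fun x hx y hy => hR (h'.2 x hx y hy)⟩⟩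
    · rw [if_neg h]
      have h' : l.length = D + 1 := by omega
      rw [h']
      exact e2 l h'

theorem bl_eq {X : Type*} (l : List X) : (TF.bl l : Ch ℂ X) = bdL ℂ l := by
  induction l with
  | nil => rfl
  | cons x l ih => rw [TF.bl, bdL, ih]; rfl

theorem bdy_eq {X : Type*} (c : Ch ℂ X) : TF.bdy c = M.bd c := by
  induction c using Finsupp.induction_linear with
  | zero => simp
  | add a b ha hb => simp only [map_add, ha, hb]
  | single l r => rw [TF.bdy_single, bd_single, bl_eq]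

theorem on_iff {X : Type*} {P : List X → Prop} {c : Ch ℂ X} : c ∈ TF.On P ↔ Sup P c := by
  simp only [TF.mem_On, Sup, mem_support_iff]

section space

variable {X : Type*} [TopologicalSpace X] [MulAction G X] [ContinuousConstSMul G X]

theorem exists_psi [ContractibleSpace X] (R : Finset G) (D : ℕ) :
    ∀ U : X → Set X, (∀ x, U x ∈ 𝓝 x) → ∃ ψ : List G → Ch ℂ X, Equi G ψ ∧ ψ [] = single [] 1 ∧
      ∀ l : List G, SmG R l → l.length ≤ D → M.bd (ψ l) = lc ψ (bdL ℂ l) ∧
        Sup (fun l' => l'.length = l.length ∧ ∃ y, ∀ x ∈ l', (hd l)⁻¹ • x ∈ U y) (ψ l) := by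
  obtain ⟨x₀, ⟨H⟩⟩ := id_nullhomotopic X
  induction D with
  | zero =>
    refine fun U _ => ⟨_, equi_nil, rfl, fun l _ hl => ?_⟩
    obtain rfl := List.eq_nil_of_length_eq_zero (Nat.le_zero.1 hl)
    exact ⟨by simp [bd_single, bdL], Sup.single 1 ⟨rfl, x₀, fun x hx => by simp at hx⟩⟩
  | succ D ih =>
    intro U hU
    obtain ⟨V, hV, hf⟩ := TF.exists_fill (F := ℂ) H.continuous H.apply_zero H.apply_one hU
    obtain ⟨ψ, h1, h2, h3⟩ := ih (fun y => U y ∩ ⋂ g ∈ R, (g • ·) ⁻¹' V (g • y)) fun y =>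
      inter_mem (hU y) ((biInter_finset_mem R).2 fun g _ =>
        (continuous_const_smul g).continuousAt (hV _))
    obtain ⟨e, e1, e2, -⟩ := exists_equi (G := G)
      (D := fun l : List G => SmG R l ∧ l.length = D + 1)
      (κ := hd) (fun g l hl => ⟨smG_smul g hl.1, (length_smul g l).trans hl.2⟩)
      (fun g l hl => hd_smul g (ne_nil_of_length hl.2))
      (P := fun l w => M.bd w = lc ψ (bdL ℂ l) ∧
        Sup (fun l' => l'.length = D + 1 ∧ ∃ y, ∀ x ∈ l', (hd l)⁻¹ • x ∈ U y) w)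
      (fun g l w hl _ h => ⟨by rw [bd_act, h.1, equi_bdL g l, h1.lc_act],
        sup_act g h.2 fun l' ⟨a1, y, a2⟩ => ⟨(length_smul g l').trans a1, y, fun x hx => by
          obtain ⟨x, hx', rfl⟩ := List.mem_map.1 hx
          rw [hd_smul g (ne_nil_of_length hl.2), mul_inv_rev, mul_smul, inv_smul_smul]
          exact a2 x hx'⟩⟩)
      fun l hl hl1 => by
        obtain ⟨w, w1, w2⟩ := hf D (lc ψ (bdL ℂ l)) (on_iff.2 ((sup_bdL l).ext fun l' hl' =>
          (h3 l' (smG_sub hl.1 hl'.1) (by omega)).2.mono fun l'' ⟨a1, y, a2⟩ =>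
            ⟨by omega, hd l' • y, fun x hx => by
              have hne : l' ≠ [] := by
                rintro rfl
                rw [List.eq_nil_of_length_eq_zero a1] at hx
                simp at hx
              have a3 := hl.1 _ (hd_mem (ne_nil_of_length hl.2)) _ (hl'.1.subset (hd_mem hne))
              rw [hl1, inv_one, one_mul] at a3
              have a4 := mem_iInter₂.1 (a2 x hx).2 _ a3
              rwa [mem_preimage, smul_inv_smul] at a4⟩))
          (by rw [bdy_eq]; exact bd_lc_bdL fun l' h h' => (h3 l' (smG_sub hl.1 h) (by omega)).1)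
        refine ⟨w, by rw [← bdy_eq, w2], (on_iff.1 w1).mono fun l' ⟨a1, y, a2⟩ =>
          ⟨a1, y, fun x hx => ?_⟩⟩
        rw [hl1, inv_one, one_smul]
        exact a2 x hx
    refine ⟨_, equi_if h1 e1 (· ≤ D), by simpa using h2, fun l hR hl => ?_⟩
    rw [lc_if _ _ hl]
    by_cases h : l.length ≤ D
    · rw [if_pos h]
      exact ⟨(h3 l hR h).1, (h3 l hR h).2.mono fun l' ⟨a1, y, a2⟩ =>
        ⟨a1, y, fun x hx => (a2 x hx).1⟩⟩
    · rw [if_neg h]
      have h' : l.length = D + 1 := by omega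
      rw [h']
      exact e2 l ⟨hR, h'⟩

theorem exists_chi [ContractibleSpace X] (hc : ∀ i, CFillS ℂ G i) (D : ℕ) (U : X → Set X)
    (hU : ∀ x, U x ∈ 𝓝 x) : ∃ χ : List G → Ch ℂ X, Equi G χ ∧ χ [] = single [] 1 ∧
      ∀ l : List G, l.length ≤ D → M.bd (χ l) = lc χ (bdL ℂ l) ∧
        Sup (fun l' => l'.length = l.length ∧ ∃ (g : G) (y : X), ∀ x ∈ l', g • x ∈ U y) (χ l) := by
  obtain ⟨R, α, h1, h2, h3⟩ := exists_alpha hc D
  obtain ⟨ψ, p1, p2, p3⟩ := exists_psi (X := X) R D U hU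
  refine ⟨fun l => lc ψ (α l), h1.comp p1, by simp only [h2, lc_single, p2, one_smul],
    fun l hl => ⟨?_, (h3 l hl).2.ext fun l' hl' => (p3 l' hl'.2 (by omega)).2.mono
      fun l'' ⟨a1, y, a2⟩ => ⟨by omega, _, y, a2⟩⟩⟩
  rw [← map_lc (lc ψ), ← (h3 l hl).1, map_lc, lc_bd]
  exact lc_congr fun l' hl' => (p3 l' ((h3 l hl).2 l' hl').2
    (by have := ((h3 l hl).2 l' hl').1; omega)).1

end space

/-- labels of the points of a cocompact covering -/
structure Lab (G X : Type*) [Group G] [TopologicalSpace X] [MulAction G X] where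
  m : ℕ
  idx : X → Fin m
  γ : X → G
  B : Set X
  R : Finset G
  U : X → Set X
  cpt : IsCompact B
  idx_smul : ∀ (g : G) x, idx (g • x) = idx x
  γ_smul : ∀ (g : G) x, γ (g • x) = g * γ x
  mem : ∀ x, (γ x)⁻¹ • x ∈ B
  nhd : ∀ x, U x ∈ 𝓝 x
  adm : ∀ x, ∀ y ∈ U x, ∀ z ∈ U x, idx y = idx z → γ y = γ z
  sm : ∀ x, ∀ y ∈ U x, ∀ z ∈ U x, (γ y)⁻¹ * γ z ∈ R

theorem exists_lab {X M : Type*} [TopologicalSpace X] [MulAction G X] [TopologicalSpace M]
    [CompactSpace M] [T2Space M] {p : X → M} (hp : IsQuotientCoveringMap p G) :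
    Nonempty (Lab G X) := by
  classical
  have hlc : LocallyCompactSpace X := (H260.exists_cocomp hp).1
  have hact := H260.coAct_of_cover hp
  have hcs : ContinuousConstSMul G X := hp.toContinuousConstSMul
  have hopen : IsOpenMap p := hp.isCoveringMap.isOpenMap
  have hpg : ∀ (γ : G) (x : X), p (γ • x) = p x := fun γ x =>
    hp.apply_eq_iff_mem_orbit.2 ⟨γ, rfl⟩
  have h1 : ∀ x : X, ∃ W : Set X, IsOpen W ∧ x ∈ W ∧
      ∀ γ : G, ∀ y ∈ W, γ • y ∈ W → γ = 1 := by
    intro x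
    obtain ⟨U, hU, hU'⟩ := hp.disjoint x
    refine ⟨interior U, isOpen_interior, mem_interior_iff_mem_nhds.2 hU, fun γ y hy hγy => ?_⟩
    exact hU' γ ⟨γ • y, ⟨y, interior_subset hy, rfl⟩, interior_subset hγy⟩
  choose W hW hxW hWd using h1
  have h2 : ∀ x : X, ∃ K : Set X, IsCompact K ∧ x ∈ interior K ∧ K ⊆ W x := fun x =>
    exists_compact_subset (hW x) (hxW x)
  choose K hK hxK hKW using h2
  obtain ⟨t, ht⟩ := isCompact_univ.elim_finite_subcover (fun x => p '' interior (K x))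
    (fun x => hopen _ isOpen_interior) (by
      intro m _
      obtain ⟨x, rfl⟩ := hp.surjective m
      exact mem_iUnion.2 ⟨x, x, hxK x, rfl⟩)
  let e := t.equivFin
  let c : Fin t.card → X := fun i => (e.symm i : X)
  have h3 : ∀ μ : M, ∃ i : Fin t.card, μ ∈ p '' K (c i) := by
    intro μ
    obtain ⟨x, hx, hμ⟩ := mem_iUnion₂.1 (ht (mem_univ μ))
    refine ⟨e ⟨x, hx⟩, ?_⟩
    simp only [c, Equiv.symm_apply_apply]
    exact image_mono interior_subset hμ
  choose idx hidx using h3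
  have h4 : ∀ y : X, ∃ γ : G, γ⁻¹ • y ∈ K (c (idx (p y))) := by
    intro y
    obtain ⟨k, hk, hky⟩ := hidx (p y)
    obtain ⟨γ, hγ⟩ := hp.apply_eq_iff_mem_orbit.1 hky.symm
    refine ⟨γ, ?_⟩
    have h' : γ • k = y := hγ
    have h'' : γ⁻¹ • y = k := by rw [← h', inv_smul_smul]
    rw [h'']; exact hk
  choose γ hγ using h4
  have huniq : ∀ (i : Fin t.card) (y : X) (a b : G), a⁻¹ • y ∈ W (c i) → b⁻¹ • y ∈ W (c i) →
      a = b := by
    intro i y a b ha hb
    have := hWd (c i) (b⁻¹ * a) (a⁻¹ • y) ha (by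
      rw [smul_smul, mul_assoc, mul_inv_cancel, mul_one]; exact hb)
    rw [inv_mul_eq_one] at this
    exact this.symm
  have hcont : Continuous p := hp.isCoveringMap.continuous
  have h5 : ∀ x, ∀ i : Fin t.card, ∃ U ∈ 𝓝 x, ∃ a : G, ∀ y ∈ U, idx (p y) = i → γ y = a := by
    intro x i
    by_cases hi : p x ∈ p '' K (c i)
    · obtain ⟨k, hk, hkx⟩ := hi
      obtain ⟨a, ha⟩ := hp.apply_eq_iff_mem_orbit.1 hkx.symm
      have hax : a • k = x := ha
      refine ⟨(fun y => a⁻¹ • y) ⁻¹' (W (c i)), ?_, a, fun y hy hyi => ?_⟩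
      · refine (continuous_const_smul a⁻¹).continuousAt ((hW _).mem_nhds ?_)
        change a⁻¹ • x ∈ _
        rw [← hax, inv_smul_smul]; exact hKW _ hk
      · refine huniq i y _ _ ?_ hy
        have := hγ y
        rw [hyi] at this
        exact hKW _ this
    · have hcl : IsClosed (p '' K (c i)) := ((hK _).image hcont).isClosed
      refine ⟨p ⁻¹' (p '' K (c i))ᶜ, hcont.continuousAt (hcl.isOpen_compl.mem_nhds hi), 1,
        fun y hy hyi => ?_⟩
      exact absurd (hyi ▸ hidx (p y)) hy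
  choose U hU a ha using h5
  have hB : IsCompact (⋃ i, K (c i)) := isCompact_iUnion fun i => hK _
  have hm : ∀ x, (γ x)⁻¹ • x ∈ ⋃ i, K (c i) := fun x => mem_iUnion.2 ⟨_, hγ x⟩
  obtain ⟨B', hB', hBB⟩ := exists_compact_superset hB
  have hfin := hact.proper _ _ hB hB'
  refine ⟨⟨t.card, fun y => idx (p y), γ, _, (hfin.toFinset ×ˢ hfin.toFinset).image
    fun q => q.1⁻¹ * q.2, fun x => (⋂ i, U x i) ∩ (fun y => (γ x)⁻¹ • y) ⁻¹' B', hB,
    fun g x => by rw [hpg], fun g x => ?_, hm, fun x => inter_mem (iInter_mem.2 (hU x))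
      ((continuous_const_smul _).continuousAt (mem_interior_iff_mem_nhds.1 (hBB (hm x)))),
    fun x y hy z hz hyz => ?_, fun x y hy z hz => ?_⟩⟩
  · have e1 : p (g • x) = p x := hpg g x
    refine huniq (idx (p x)) (g • x) _ _ ?_ ?_
    · have := hγ (g • x)
      rw [e1] at this
      exact hKW _ this
    · rw [mul_inv_rev, smul_smul, inv_mul_cancel_right]
      exact hKW _ (hγ x)
  · rw [ha x (idx (p y)) y (mem_iInter.1 hy.1 _) rfl,
      ha x (idx (p y)) z (mem_iInter.1 hz.1 _) hyz.symm]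
  · have key : ∀ y, (γ x)⁻¹ • y ∈ B' → (γ x)⁻¹ * γ y ∈ hfin.toFinset := fun y hy =>
      hfin.mem_toFinset.2 ⟨_, hm y, by rwa [mul_smul, smul_inv_smul]⟩
    exact Finset.mem_image.2 ⟨(_, _), Finset.mem_product.2 ⟨key y hy.2, key z hz.2⟩, by group⟩

theorem Lab.smG {X : Type*} [TopologicalSpace X] [MulAction G X] (L : Lab G X) {l : List X}
    {g : G} {y : X} (h : ∀ x ∈ l, g • x ∈ L.U y) : SmG L.R (l.map L.γ) := by
  intro a ha b hb
  obtain ⟨a, ha', rfl⟩ := List.mem_map.1 ha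
  obtain ⟨b, hb', rfl⟩ := List.mem_map.1 hb
  have := L.sm y _ (h a ha') _ (h b hb')
  rwa [L.γ_smul, L.γ_smul, mul_inv_rev, mul_assoc, inv_mul_cancel_left] at this

/-- a chain map of the complex of lists into a finite dimensional complex of finite type -/
structure Dom (R : Finset G) (d : ℕ) (T : List G → Ch ℂ G) : Prop where
  equi : Equi G T
  nil : T [] = single [] 1
  chain : ∀ l, M.bd (T l) = lc T (bdL ℂ l)
  sup : ∀ l, Sup (fun l' => l'.length = l.length ∧ SmG R l') (T l)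
  top : ∀ l, d < l.length → T l = 0

theorem pf_pf {X Y Z : Type*} (f : X → Y) (g : Y → Z) (c : Ch ℂ X) :
    pf g (pf f c) = pf (fun x => g (f x)) c := TF.psh_psh f g c

theorem exists_dom {X : Type*} [TopologicalSpace X] [MulAction G X] [ContinuousConstSMul G X]
    [ContractibleSpace X] (L : Lab G X) (hc : ∀ i, CFillS ℂ G i) :
    ∃ T, Dom L.R L.m T := by
  obtain ⟨χ, h1, h2, h3⟩ := exists_chi hc (L.m + 1) L.U L.nhd
  let lab : X → Fin L.m × G := fun x => (L.idx x, L.γ x)
  let Φ : Ch ℂ X →ₗ[ℂ] Ch ℂ G := pf Prod.snd ∘ₗ TF.TL ∘ₗ pf lab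
  have hΦ : ∀ c, Φ c = pf Prod.snd (TF.TL (pf lab c)) := fun _ => rfl
  have e1 : ∀ (g : G) c, Φ (act g c) = act g (Φ c) := fun g c => by
    have a1 : pf lab (act g c) = pf (Prod.map id (g * ·)) (pf lab c) := by
      rw [act_eq_pf, pf_pf, pf_pf]
      congr 2
      funext x
      simp only [lab, L.idx_smul, L.γ_smul, Prod.map, id]
    have a2 := TF.psh_TL (g * ·) (pf lab c)
    rw [hΦ, hΦ, a1]
    change pf _ (TF.TL (TF.psh _ _)) = _
    rw [← a2, act_eq_pf, pf_pf]
    exact pf_pf _ _ _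
  have e2 : ∀ l : List G, l.length ≤ L.m + 1 →
      M.bd (Φ (χ l)) = lc (fun l => Φ (χ l)) (bdL ℂ l) := fun l hl => by
    rw [← map_lc, ← (h3 l hl).1, hΦ, hΦ, bd_pf, ← bdy_eq, TF.bdy_TL, bdy_eq, bd_pf]
    refine on_iff.2 (Sup.pf _ ((h3 l hl).2.mono fun l' ⟨_, g, y, a2⟩ a ha b hb hab => ?_))
    obtain ⟨a, ha', rfl⟩ := List.mem_map.1 ha
    obtain ⟨b, hb', rfl⟩ := List.mem_map.1 hb
    have := L.adm y _ (a2 a ha') _ (a2 b hb') (by rw [L.idx_smul, L.idx_smul]; exact hab)
    rw [L.γ_smul, L.γ_smul] at this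
    exact Prod.ext hab (mul_left_cancel this)
  have e3 : ∀ l : List G, l.length ≤ L.m + 1 → Sup (fun l' => (l'.length = l.length ∧
      SmG L.R l') ∧ l'.length ≤ L.m) (Φ (χ l)) := fun l hl => by
    rw [SupA.eq_ext' Φ]
    refine (h3 l hl).2.ext fun l' ⟨a1, g, y, a2⟩ => ?_
    rw [hΦ, pf_single, TF.TL_single, one_smul]
    refine Sup.pf _ ((on_iff.1 (TF.Tl_mem _)).mono fun t ⟨b1, b2, b3⟩ => ⟨⟨by simp [b2, a1],
      fun a ha b hb => ?_⟩, by simpa using b1.length_le⟩)
    obtain ⟨a, ha', rfl⟩ := List.mem_map.1 ha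
    obtain ⟨b, hb', rfl⟩ := List.mem_map.1 hb
    obtain ⟨a, ha'', rfl⟩ := List.mem_map.1 (b3 a ha')
    obtain ⟨b, hb'', rfl⟩ := List.mem_map.1 (b3 b hb')
    exact L.smG a2 _ (List.mem_map_of_mem ha'') _ (List.mem_map_of_mem hb'')
  refine ⟨fun l => if l.length ≤ L.m then Φ (χ l) else 0, equi_if
    (fun g l => by rw [h1 g l, e1]) equi_zero (· ≤ L.m), ?_, fun l => ?_, fun l => ?_,
    fun l hl => if_neg (by omega)⟩
  · rw [if_pos (by simp), h2, hΦ, pf_single, TF.TL_single, one_smul]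
    exact pf_single _ _ _
  · by_cases h : l.length ≤ L.m + 1
    · rw [lc_if _ _ h, ← e2 l h]
      split_ifs with h'
      · rfl
      · congr 1
        refine (support_eq_empty.1 (Finset.eq_empty_of_forall_notMem fun l' hl' => ?_)).symm
        have := e3 l h l' hl'
        omega
    · rw [if_neg (by omega), map_zero, lc_congr (v := fun _ => 0), lc_zero]
      exact fun l' hl' => if_neg (by have := (sup_bdL l l' hl').2; omega)
  · split_ifs with h
    · exact (e3 l (by omega)).mono fun _ h => h.1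
    · exact Sup.zero

end Vale.Agent.P239Z
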