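import Vale.Agent.P239Z.Deg

set_option linter.all false

/-!
# The fundamental class and the cohomology with compact supports of a contractible manifold
-/

namespace Vale.Agent.P239Z

open Topology Set Filter Metric Vale.Agent.P291Z TopologicalSpace

theorem exactOn_le {R : Type*} [CommRing R] {B : Type*} [TopologicalSpace B] {K : Type*}
    [AddCommGroup K] [Module R K] (S : Soft R B K) [T3Space B] (hU : Soft.LocFin (univ : Set B))
    {k : ℤ} (hs : ∀ x, ∀ n ≤ k, S.StalkExact x n) :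
    ∀ A, IsCompact A → ∀ n ≤ k, S.ExactOn A n := by
  intro A hA
  have key : ∃ A', IsCompact A' ∧ A ⊆ A' ∧ ∀ C ⊆ A', IsCompact C → ∀ n ≤ k, S.ExactOn C n := by
    refine hA.induction_on (p := fun s => ∃ A', IsCompact A' ∧ s ⊆ A' ∧
      ∀ C ⊆ A', IsCompact C → ∀ n ≤ k, S.ExactOn C n) ?_ ?_ ?_ ?_
    · refine ⟨∅, isCompact_empty, subset_rfl, fun C hC _ n _ => ?_⟩
      rw [subset_empty_iff.1 hC]
      exact S.exactOn_empty n
    · rintro s t hst ⟨A', h1, h2, h3⟩
      exact ⟨A', h1, hst.trans h2, h3⟩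
    · rintro s t ⟨A₁, c₁, s₁, e₁⟩ ⟨A₂, c₂, s₂, e₂⟩
      refine ⟨A₁ ∪ A₂, c₁.union c₂, union_subset_union s₁ s₂, fun C hC hc n hn => ?_⟩
      have e : C = C ∩ A₁ ∪ C ∩ A₂ := by rw [← inter_union_distrib_left, inter_eq_left.2 hC]
      rw [e]
      exact S.exactOn_union (e₁ _ inter_subset_right (hc.inter c₁) n hn)
        (e₂ _ inter_subset_right (hc.inter c₂) n hn)
        (e₁ _ (inter_subset_left.trans inter_subset_right) ((hc.inter c₁).inter (hc.inter c₂)) _
          (by omega))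
        (Soft.sep_compact (hc.inter c₁) (hc.inter c₂))
    · intro x hx
      obtain ⟨N, hN, d, f, hf, hi⟩ := hU x trivial
      obtain ⟨C, hC, hCc, hCs⟩ := exists_mem_nhds_isClosed_subset hN
      refine ⟨A ∩ C, inter_mem self_mem_nhdsWithin (mem_nhdsWithin_of_mem_nhds hC), A ∩ C,
        hA.inter_right hCc, subset_rfl, fun D hD hc n hn => ?_⟩
      have hDN : D ⊆ N := fun y hy => hCs (hD hy).2
      exact S.exactOn_of_inj d D hc f (hf.mono hDN) (hi.mono hDN) n
        fun y hy m _ hm => hs y m (hm.trans hn)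
  obtain ⟨A', -, h1, h2⟩ := key
  exact h2 A h1 hA

variable {n : ℕ} {X : Type} [TopologicalSpace X]

theorem kills_δ {d : ℤ} {φ : DualC X} {U : Set X} (h : Kills ((dualSoft X d).δ φ) U) {c : Coch X}
    (hc : IsCompact (supp c)) (hU : supp c ⊆ U) : φ.1 (δ c) = 0 := by
  have := h (par c) (isCompact_supp_of_subset hc (supp_par c)) ((supp_par c).trans hU)
  rwa [dualSoft_δ, par_δ_par, map_neg, neg_eq_zero] at this

theorem kill_of_chart [T2Space X] [LocallyCompactSpace X] {d : ℤ} {φ : DualC X} {U : Set X}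
    (h : Kills ((dualSoft X d).δ φ) U) {i : E n → X} (hi : IsOpenEmbedding i) (hU : range i ⊆ U)
    {b : Coch X} (hb : b ∈ Zc X) (hs : supp b ⊆ range i) (h0 : cls (pull i b) = 0) :
    φ.1 b = 0 := by
  obtain ⟨c, h1, h2, h3⟩ := exists_prim_open hi hb hs
    ((cls_eq_zero (pull_open_Zc hi hb hs)).1 h0)
  rw [← sub_add_cancel b (δ c), map_add, φ.null h3, kills_δ h h1 (h2.trans hU), add_zero]

/-- `b` extends the standard generator along the chart `i` -/
def Gen (i : E n → X) (b : Coch X) : Prop :=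
  b ∈ Zc X ∧ supp b ⊆ range i ∧ cls (pull i b) = cls (tn n)

theorem exists_gen [T2Space X] [LocallyCompactSpace X] {i : E n → X} (hi : IsOpenEmbedding i) :
    ∃ b, Gen i b := cls_surj_open' hi _

theorem Gen.push [T2Space X] [LocallyCompactSpace X] {i : E n → X} (hi : IsOpenEmbedding i)
    {b : Coch X} (h : Gen i b) : Hc.push hi (cls (tn n)) = cls b := by
  rw [← h.2.2, Hc.push_cls hi h.1 h.2.1]

theorem Gen.pull [T2Space X] [LocallyCompactSpace X] {i j : E n → X} (hi : IsOpenEmbedding i)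
    (hj : IsOpenEmbedding j) (hij : range i ⊆ range j) {b : Coch X} (h : Gen i b) :
    cls (pull j b) = ((rd j i : ℤ) : ℂ) • cls (tn n) := by
  have he := tr_emb hi hj hij
  rw [rd, ← dg_spec he, ← h.2.2]
  have e : P291Z.pull i b = P291Z.pull (Function.invFun j ∘ i) (P291Z.pull j b) := by
    rw [pull_pull, comp_tr hij]
  rw [e, Hc.push_cls he (pull_open_Zc hj h.1 (h.2.1.trans hij))]
  intro v hv
  obtain ⟨u, hu⟩ := h.2.1 (supp_pull hj.continuous b hv)
  exact ⟨u, by rw [Function.comp_apply, hu, Function.leftInverse_invFun hj.injective]⟩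

/-- **The fundamental class** -/
theorem exists_ori [MetrizableSpace X] [LocallyCompactSpace X] [SigmaCompactSpace X]
    [ContractibleSpace X] (hch : ∀ x : X, ∃ j : E n → X, IsOpenEmbedding j ∧ x ∈ range j) :
    ∃ β : BM X, BM.IsDeg n β ∧ ∀ (j : E n → X) (hj : IsOpenEmbedding j),
      ∃ u : ℤˣ, β (Hc.push hj (cls (tn n))) = ((u : ℤ) : ℂ) := by
  obtain ⟨o, ho⟩ := exists_signs hch
  obtain ⟨τ, hτ⟩ : ∃ τ : Hc (E n) →ₗ[ℂ] ℂ, τ (cls (tn n)) = 1 := by
    obtain ⟨τ, hτ⟩ := not_forall.1 (mt (Module.forall_dual_apply_eq_zero_iff ℂ _).1 (tn_gen n).ne)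
    exact ⟨(τ (cls (tn n)))⁻¹ • τ, by rw [LinearMap.smul_apply, smul_eq_mul, inv_mul_cancel₀ hτ]⟩
  have hsm : ∀ y : X, ∀ U ∈ 𝓝 y, ∃ i : E n → X, IsOpenEmbedding i ∧ y ∈ range i ∧ range i ⊆ U :=
    fun y U hU => by
      obtain ⟨j, hj, hy⟩ := hch y
      exact exists_small hj hy hU
  have hdeg : ∀ {k : ℤ} {i : E n → X} {b : Coch X}, k ≠ n → cls (pull i (comp k b)) = 0 :=
    fun hk => (tn_gen n).eq_zero hk (cls_mem_deg ((isDeg_comp _ _).pull _))
  obtain ⟨a, ha, hP⟩ := (dualSoft X n).exists_section (dualSoft_glue n) (n := 0)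
    (fun y a => (dualSoft X n).δ a ∈ VanD y ∧ ∃ U ∈ 𝓝 y, ∀ i : E n → X, IsOpenEmbedding i →
      range i ⊆ U → ∀ b, Gen i b → a.1 b = ((o i : ℤ) : ℂ)) (fun x => by
      obtain ⟨j, hj, hx⟩ := hch x
      let W : Submodule ℂ (Coch X) := Zc X ⊓ (Fam.sub (range j)).coch
      obtain ⟨φ, h1, h2⟩ := exists_dualC W (((o j : ℤ) : ℂ) • τ ∘ₗ clsL W (pull j).toLinearMap
        fun b hb => pull_open_Zc hj hb.1 hb.2) n fun a ha => ⟨⟨Bc_le_Zc (mem_Bc_of_null ha),
          fun x hx => absurd hx (ha x)⟩, by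
            change _ * τ (cls (pull j a)) = 0
            rw [cls_of_mem_Bc (mem_Bc_of_null fun v => Van.pull hj.continuous.continuousAt (ha _)),
              map_zero, mul_zero]⟩
      have h3 : ∀ b ∈ Zc X, supp b ⊆ range j →
          φ.1 b = ((o j : ℤ) : ℂ) * τ (Hc.comp n (cls (pull j b))) := fun b hb hs => by
        rw [h2 b ⟨Zc.comp hb n, (supp_comp _ _).trans hs⟩, Hc.comp_cls _ (pull_open_Zc hj hb hs),
          comp_pull]
        rfl
      refine ⟨φ, by rwa [← sub_zero (n : ℤ)] at h1, ?_⟩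
      filter_upwards [hj.isOpen_range.mem_nhds hx] with y hy
      have hn := hj.isOpen_range.mem_nhds hy
      refine ⟨⟨range j, hn, fun b hb hs => ?_⟩, range j, hn, fun i hi hij b hb => ?_⟩
      · have h4 : IsCompact (supp (par b)) := isCompact_supp_of_subset hb (supp_par b)
        have h5 : supp (par b) ⊆ range j := (supp_par b).trans hs
        rw [dualSoft_δ, ← neg_neg (par (δ b)), ← δ_par, map_neg, h3 _ (Bc_le_Zc (δ_mem_Bc h4))
          ((supp_δ _).trans h5), ← δ_pull, cls_of_mem_Bc (δ_mem_Bc (isCompact_pull_open hj h4 h5))]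
        simp
      · rw [h3 b hb.1 (hb.2.1.trans hij), hb.pull hi hj hij, map_smul,
          Hc.comp_of_mem (cls_mem_deg (tn_gen n).deg), map_smul, hτ, ho i j hi hj hij]
        push_cast
        rw [smul_eq_mul, mul_one, mul_comm])
    (fun y a ha a' ha' ⟨⟨U, hU, h1⟩, V, hV, h2⟩ ⟨⟨U', hU', h1'⟩, V', hV', h2'⟩ => by
      obtain ⟨i, hi, hy, hs⟩ := hsm y _ (inter_mem (inter_mem hU hV) (inter_mem hU' hV'))
      obtain ⟨b₀, hb₀⟩ := exists_gen hi
      obtain ⟨c, hc, h3⟩ := exists_dual_prim (Submodule.sub_mem _ ha ha') (U := range i)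
        fun b hb hs' => by
          obtain ⟨z, hz⟩ := (tn_gen n).span (cls (pull i b))
          have h4 : cls (pull i (b - z • b₀)) = 0 := by
            have := pull_open_Zc hi hb₀.1 hb₀.2.1
            rw [map_sub, map_smul, cls_sub (pull_open_Zc hi hb hs') ((Zc _).smul_mem z this),
              cls_smul z this, hb₀.2.2, hz, sub_self]
          have h5 := (Zc X).sub_mem hb ((Zc X).smul_mem z hb₀.1)
          have h6 : supp (b - z • b₀) ⊆ range i :=
            (supp_sub _ _).trans (union_subset hs' ((supp_smul z b₀).trans hb₀.2.1))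
          have h7 := kill_of_chart h1 hi (fun x hx => (hs hx).1.1) h5 h6 h4
          have h8 := kill_of_chart h1' hi (fun x hx => (hs hx).2.1) h5 h6 h4
          rw [map_sub, map_smul, h2 i hi (fun x hx => (hs hx).1.2) b₀ hb₀, sub_eq_zero] at h7
          rw [map_sub, map_smul, h2' i hi (fun x hx => (hs hx).2.2) b₀ hb₀, sub_eq_zero] at h8
          rw [Submodule.coe_sub, LinearMap.sub_apply, h7, h8, sub_self]
      exact ⟨c, hc, range i, hi.isOpen_range.mem_nhds hy, h3⟩)
    (fun y a ha a' ha' c hc ⟨h1, V, hV, h2⟩ h3 => by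
      refine ⟨?_, ?_⟩
      · have := (VanD y).add_mem ((VanD y).add_mem ((dualSoft X n).δ_van y _ h3) h1)
          ((dualSoft X n).δδ c y)
        rw [map_sub, map_sub] at this
        rwa [show (dualSoft X n).δ a' = (dualSoft X n).δ a' - (dualSoft X n).δ a -
          (dualSoft X n).δ ((dualSoft X n).δ c) + (dualSoft X n).δ a +
          (dualSoft X n).δ ((dualSoft X n).δ c) by abel]
      · obtain ⟨U, hU, h4⟩ := h3
        refine ⟨V ∩ U, inter_mem hV hU, fun i hi hs b hb => ?_⟩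
        have h5 := h4 b hb.1.1 (hb.2.1.trans (hs.trans inter_subset_right))
        rw [Submodule.coe_sub, Submodule.coe_sub, LinearMap.sub_apply, LinearMap.sub_apply,
          dualSoft_δ, c.null fun x => Van.par (supp_eq_empty.1 hb.1.2 x), sub_zero,
          sub_eq_zero] at h5
        rw [h5, h2 i hi (hs.trans inter_subset_left) b hb])
    (fun A hA => exactOn_le (dualSoft X n) (locFin_of_charts hch) (k := 0 - 1)
      (fun x m hm φ hφ ⟨U, hU, h1⟩ => by
      obtain ⟨i, hi, hy, hs⟩ := hsm x U hU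
      obtain ⟨c, hc, h3⟩ := exists_dual_prim hφ (U := range i) fun b hb hs' => by
        rw [← degD_comp hφ b]
        exact kill_of_chart h1 hi hs (Zc.comp hb _) ((supp_comp _ _).trans hs') (hdeg (by omega))
      exact ⟨c, hc, range i, hi.isOpen_range.mem_nhds hy, h3⟩) A hA _ le_rfl)
  have ha' : a ∈ degD X n := by rwa [← sub_zero (n : ℤ)]
  obtain ⟨β, hβ⟩ := Hc.exists_lift (Zc X) LinearMap.id (a.1 ∘ₗ (Zc X).subtype) (fun _ h => h)
    (fun b hb => ⟨b, hb, by simp⟩) fun b ⟨c, hc, h⟩ => by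
      change a.1 b = 0
      have h1 : a.1 (δ c) = 0 := kills_δ (U := univ)
        (fun b hb _ => kills_of_van hb fun x _ => (hP x).1) hc (subset_univ _)
      rw [← sub_add_cancel b.1 (δ c), map_add, a.null (a := b.1 - δ c) (supp_eq_empty.1 h), h1,
        add_zero]
  have hβ' : ∀ b ∈ Zc X, β (cls b) = a.1 b := fun b hb => hβ ⟨b, hb⟩
  refine ⟨β, BM.isDeg_iff.2 fun k hk c ⟨b, hb, h1, h2⟩ => ?_, fun j hj => ⟨o j, ?_⟩⟩
  · rw [← h2, hβ' b hb, ha' b k h1 hk]
  · obtain ⟨U, hU, h1⟩ := (hP (j 0)).2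
    obtain ⟨i, hi, -, hs⟩ := hsm _ _ (inter_mem hU (hj.isOpen_range.mem_nhds (mem_range_self 0)))
    obtain ⟨b, hb⟩ := exists_gen hi
    have hij := hs.trans inter_subset_right
    have h2 := congrArg β (push_rd hi hj hij)
    rw [hb.push hi, hβ' b hb.1, h1 i hi (hs.trans inter_subset_left) b hb, map_smul,
      ho i j hi hj hij, smul_eq_mul] at h2
    push_cast at h2
    refine (mul_left_cancel₀ ?_ h2).symm
    exact_mod_cast (rd j i).ne_zero

/-- **Cohomology with compact supports of a contractible manifold.** -/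
theorem hc_structure [MetrizableSpace X] [LocallyCompactSpace X] [SigmaCompactSpace X]
    [ContractibleSpace X] (hch : ∀ x : X, ∃ j : E n → X, IsOpenEmbedding j ∧ x ∈ range j) :
    ∃ β : Coch X → ℂ, (∀ a ∈ Zc X, ∀ b ∈ Zc X, ∀ z : ℂ, β (a - z • b) = β a - z * β b) ∧
      (∀ a ∈ Zc X, (β a = 0 ↔ a ∈ Bc X)) ∧
      (∀ k : ℤ, k ≠ n → ∀ a, IsDeg k a → β a = 0) ∧
      ∀ e : X ≃ₜ X, ∃ u : ℤˣ, ∀ a ∈ Zc X, β (pull e a) = ((u : ℤ) : ℂ) * β a := by
  obtain ⟨β, h1, h2⟩ := exists_ori hch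
  have hb : Function.Bijective (pd β) :=
    pd_bijective_of_charts (V := E n) (by simpa using h1) fun x => by
      obtain ⟨j, hj, hx⟩ := hch x
      refine ⟨j, hj, hx, fun h0 => ?_⟩
      obtain ⟨u, hu⟩ := h2 j hj
      have := LinearMap.congr_fun h0 (cls (tn n))
      rw [LinearMap.dualMap_apply, hu, LinearMap.zero_apply] at this
      exact u.ne_zero (by exact_mod_cast this)
  have hsp : ∀ β' : BM X, ∃ z : ℂ, β' = z • β := fun β' => by
    obtain ⟨h, rfl⟩ := hb.2 β'
    obtain ⟨z, rfl⟩ := acyc_of_contractible h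
    exact ⟨z, by rw [map_smul, pd_one]⟩
  refine ⟨fun a => β (cls a), fun a ha b hb z => ?_, fun a ha => ⟨fun h => ?_, fun h => ?_⟩,
    fun k hk a ha => BM.isDeg_iff.1 h1 k hk _ (cls_mem_deg ha), fun e => ?_⟩
  · simp only []
    rw [cls_sub ha ((Zc X).smul_mem z hb), cls_smul z hb, map_sub, map_smul, smul_eq_mul]
  · refine (cls_eq_zero ha).1 ((Module.forall_dual_apply_eq_zero_iff ℂ _).1 fun β' => ?_)
    obtain ⟨z, rfl⟩ := hsp β'
    rw [LinearMap.smul_apply, show β (cls a) = 0 from h, smul_zero]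
  · simp only []
    rw [cls_of_mem_Bc h, map_zero]
  · obtain ⟨z, hz⟩ := hsp (β ∘ₗ Hc.pull (IsPr.of_homeomorph e))
    obtain ⟨j, hj, -⟩ := hch (Classical.arbitrary X)
    obtain ⟨u, hu⟩ := h2 j hj
    obtain ⟨u', hu'⟩ := h2 _ (e.isOpenEmbedding.comp hj)
    obtain ⟨c, hc⟩ := (Hc.equiv e).surjective (Hc.push hj (cls (tn n)))
    rw [Hc.equiv_apply] at hc
    have h3 := LinearMap.congr_fun hz c
    rw [LinearMap.comp_apply, hc, hu, LinearMap.smul_apply, ← Hc.push_homeomorph e c, hc,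
      Hc.push_push, hu', smul_eq_mul] at h3
    refine ⟨u * u', fun a ha => ?_⟩
    have h4 := LinearMap.congr_fun hz (cls a)
    rw [LinearMap.comp_apply, Hc.pull_cls _ ha, LinearMap.smul_apply, smul_eq_mul] at h4
    simp only []
    rw [h4]
    congr 1
    have h5 : ((u' : ℤ) : ℂ) * ((u' : ℤ) : ℂ) = 1 := by
      rw [← Int.cast_mul, ← Units.val_mul, Int.units_mul_self]; simp
    push_cast
    rw [h3, mul_assoc, h5, mul_one]

end Vale.Agent.P239Z
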