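import Vale.Agent.P239Z.Fin
import Vale.Agent.P239Z.Ori

set_option linter.all false

/-!
# The cohomology of the group with coefficients in the group ring injects in the cohomology with
compact supports of the space
-/

namespace Vale.Agent.P239Z

open Finsupp Vale.Agent.P239 Vale.Agent.P239.M Set Topology Filter

variable {G : Type*} [Group G]

/-- cocycles on lists of length `m` -/
def Coc (m : ℕ) (f : List G → G →₀ ℂ) : Prop :=
  ∀ l : List G, l.length = m + 1 → lc f (bdL ℂ l) = 0

/-- coboundaries on lists of length `m` -/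
def Cob (m : ℕ) (f : List G → G →₀ ℂ) : Prop :=
  ∃ y : List G → G →₀ ℂ, Equi G y ∧ ∀ l : List G, l.length = m → f l = lc y (bdL ℂ l)

theorem finite_lists {X : Type*} (R : Finset X) (m : ℕ) :
    {l : List X | l.length = m ∧ ∀ x ∈ l, x ∈ R}.Finite := by
  refine ((List.finite_length_eq R m).image (List.map Subtype.val)).subset ?_
  rintro l ⟨h1, h2⟩
  exact ⟨l.attachWith _ h2, by simpa using h1, by simp⟩

/-- representatives of the orbits of small lists -/
def Rep (R : Finset G) (m : ℕ) : Set (List G) := {l | l.length = m + 1 ∧ hd l = 1 ∧ SmG R l}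

theorem finite_rep (R : Finset G) (m : ℕ) : (Rep R m).Finite :=
  (finite_lists R (m + 1)).subset fun l hl => ⟨hl.1, fun x hx => by
    have := hl.2.2 _ (hd_mem (ne_nil_of_length hl.1)) x hx
    rwa [hl.2.1, inv_one, one_mul] at this⟩

theorem mem_rep {R : Finset G} {m : ℕ} {l : List G} (h1 : l.length = m + 1) (h2 : SmG R l) :
    (hd l)⁻¹ • l ∈ Rep R m :=
  ⟨(length_smul _ l).trans h1, by rw [hd_smul _ (ne_nil_of_length h1), inv_mul_cancel],
    smG_smul _ h2⟩

theorem equi_htp {Φ : List G → Ch ℂ G} (h : Equi G Φ) : Equi G (htp hd Φ) := by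
  intro g l
  induction hn : l.length generalizing l with
  | zero =>
    obtain rfl := List.eq_nil_of_length_eq_zero hn
    change htp hd Φ [] = _
    rw [htp_nil, map_zero]
  | succ n ih =>
    have h1 := ne_nil_of_length hn
    have h2 := ne_nil_of_length ((length_smul g l).trans hn)
    rw [htp_of_ne _ _ h1, htp_of_ne _ _ h2, act_eq_pf, pf_cone, ← act_eq_pf, hd_smul g h1,
      map_sub (act g), map_sub (act g), act_single, h g l, equi_bdL g l, smul_eq_mul]
    congr 2
    change lc _ _ = act g (lc _ _)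
    rw [lc_act, map_lc]
    exact lc_congr fun l' hl' => ih l' (by have := (sup_bdL l l' hl').2; omega)

open Vale.Agent.P291Z

theorem cob_lc {X : Type} (a : List X → ℂ) (l : List X) : cob a l = lc a (bdL ℂ l) := by
  induction l generalizing a with
  | nil => simp [cob_nil, bdL]
  | cons x l ih =>
    rw [cob_cons, bdL, map_sub, lc_single, one_smul, ih]
    congr 1
    exact (SpA.ext_cone a x _).symm

variable {X : Type} [TopologicalSpace X] [MulAction G X] (L : Lab G X)

/-- the cochain on the space given by a cochain on the group -/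
noncomputable def asC (m : ℕ) (f : List G → G →₀ ℂ) : Coch X :=
  ⟨fun l => if l.length = m + 1 then f (l.map L.γ) 1 else 0, by simp, m + 1,
    fun l hl => if_neg (by omega)⟩

theorem asC_val (m : ℕ) (f : List G → G →₀ ℂ) (l : List X) :
    (asC L m f).1 l = if l.length = m + 1 then f (l.map L.γ) 1 else 0 := rfl

theorem asC_deg (m : ℕ) (f : List G → G →₀ ℂ) : IsDeg m (asC L m f) := fun l hl =>
  if_neg (by omega)

theorem asC_congr {m : ℕ} {f f' : List G → G →₀ ℂ} (h : ∀ l : List G, l.length = m + 1 →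
    f l = f' l) : asC L m f = asC L m f' := Coch.ext fun l => by
  rw [asC_val, asC_val]
  split_ifs with hl
  · rw [h _ (by simpa using hl)]
  · rfl

theorem asC_zero (m : ℕ) : asC L m (fun _ => 0) = 0 := Coch.ext fun l => by
  rw [asC_val]; simp [Coch.zero_val]

theorem asC_sub (m : ℕ) (f f' : List G → G →₀ ℂ) (z : ℂ) :
    asC L m (fun l => f l - z • f' l) = asC L m f - z • asC L m f' := Coch.ext fun l => by
  rw [Coch.sub_val, Coch.smul_val, Pi.sub_apply, Pi.smul_apply, asC_val, asC_val, asC_val]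
  split_ifs <;> simp

theorem lc_pf {Y Z M' : Type*} [AddCommGroup M'] [Module ℂ M'] (u : List Z → M') (f : Y → Z)
    (c : Ch ℂ Y) : lc u (pf f c) = lc (fun l => u (l.map f)) c := by
  induction c using Finsupp.induction_linear with
  | zero => simp
  | add a b ha hb => simp only [map_add, ha, hb]
  | single l r => simp only [pf_single, lc_single]

theorem δ_asC (m : ℕ) (y : List G → G →₀ ℂ) :
    δ (asC L m y) = asC L (m + 1) fun l => lc y (bdL ℂ l) := Coch.ext fun l => by
  rw [δ_val, cob_lc, asC_val]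
  split_ifs with hl
  · rw [← pf_bdL, lc_pf, lc_apply]
    exact lc_congr fun l' hl' => if_pos (by have := (sup_bdL l l' hl').2; omega)
  · rw [lc_congr (v := fun _ => 0), lc_zero]
    exact fun l' hl' => if_neg (by have := (sup_bdL l l' hl').2; omega)

theorem Lab.map_smul (g : G) (l : List X) : (g • l).map L.γ = g • l.map L.γ := by
  simp only [smul_list, List.map_map]
  exact List.map_congr_left fun x _ => L.γ_smul g x

theorem Equi.apply {S : Type*} [MulAction G S] {f : S → G →₀ ℂ} (h : Equi G f) (g : G) (s : S) :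
    f (g • s) 1 = f s g⁻¹ := by rw [h, act_apply, smul_eq_mul, mul_one]

theorem asC_rt (m : ℕ) {f : List G → G →₀ ℂ} (hf : Equi G f) (h : G) :
    asC L m (fun l => rt h (f l)) = pull (h • ·) (asC L m f) := Coch.ext fun l => by
  rw [pull_val, asC_val, asC_val, List.length_map, ← smul_list, L.map_smul, hf.apply, rt_apply,
    one_mul]

variable [ContinuousConstSMul G X]

theorem asC_far (m : ℕ) {f : List G → G →₀ ℂ} (hf : Equi G f) : ∃ C : Set X, IsCompact C ∧
    ∀ l : List X, SmG L.R (l.map L.γ) → (∀ x ∈ l, x ∉ C) → (asC L m f).1 l = 0 := by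
  have hfin : (⋃ j ∈ Rep L.R m, (fun g : G => g⁻¹) '' (f j).support).Finite :=
    (finite_rep L.R m).biUnion fun j _ => (f j).support.finite_toSet.image _
  refine ⟨⋃ g ∈ hfin.toFinset, (g • ·) '' L.B, hfin.toFinset.isCompact_biUnion fun g _ =>
    L.cpt.image (continuous_const_smul g), fun l h1 h2 => ?_⟩
  rw [asC_val]
  split_ifs with hl
  · by_contra h3
    obtain ⟨x, l, rfl⟩ := List.exists_cons_of_ne_nil (ne_nil_of_length hl)
    have h4 := mem_rep (m := m) (by simpa using hl) h1
    rw [← smul_inv_smul (hd ((x :: l).map L.γ)) ((x :: l).map L.γ), hf.apply] at h3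
    refine h2 x List.mem_cons_self (mem_iUnion₂.2 ⟨L.γ x, hfin.mem_toFinset.2 (mem_iUnion₂.2
      ⟨_, h4, _, mem_support_iff.2 h3, inv_inv _⟩), _, L.mem x, smul_inv_smul _ _⟩)
  · rfl

theorem asC_compact [T2Space X] (m : ℕ) {f : List G → G →₀ ℂ} (hf : Equi G f) :
    IsCompact (supp (asC L m f)) := by
  obtain ⟨C, hC, h⟩ := asC_far L m hf
  refine isCompact_supp_of_subset hC fun x hx => by_contra fun hx' => notMem_supp.2
    ⟨L.U x ∩ Cᶜ, inter_mem (L.nhd x) (hC.isClosed.isOpen_compl.mem_nhds hx'), fun l hl =>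
      h l (L.smG (g := 1) (y := x) fun y hy => ?_) fun y hy => (hl y hy).2⟩ hx
  rw [one_smul]
  exact (hl y hy).1

theorem asC_Zc [T2Space X] {m : ℕ} {f : List G → G →₀ ℂ} (hf : Equi G f) (hc : Coc (m + 1) f) :
    asC L m f ∈ Zc X :=
  ⟨asC_compact L m hf, by rw [δ_asC, asC_congr L hc, asC_zero, supp_zero]⟩

theorem cob_of_Bc [T2Space X] [LocallyCompactSpace X] [ContractibleSpace X]
    (hact : CoAct G X) (hc : ∀ i, CFillS ℂ G i) {m : ℕ} {f : List G → G →₀ ℂ} (hf : Equi G f)
    (hz : Coc (m + 1) f) (hb : asC L m f ∈ Bc X) : Cob (m + 1) f := by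
  obtain ⟨b, b1, b2⟩ := hb
  obtain ⟨K, hK, hbK⟩ := exists_compact_superset b1
  obtain ⟨C, hC, hfar⟩ := asC_far L m hf
  have null : ∀ x, asC L m f - δ (cut K b) ∈ Van x := fun x => by
    have := (Van x).add_mem (supp_eq_empty.1 b2 x) (Van.δ (sub_cut_null (K := K)
      (fun x hx => mem_interior_iff_mem_nhds.1 (hbK hx)) x))
    rwa [map_sub, sub_add_sub_cancel] at this
  choose V hV hVa using fun x => notMem_supp.1 (null x)
  choose N hN hNx using fun x : X => exists_compact_mem_nhds x
  have hfin : ∀ y, {g : G | ∃ x ∈ C ∪ K, g • x ∈ N y}.Finite := fun y =>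
    hact.proper _ _ (hC.union hK) (hN y)
  obtain ⟨χ, c1, c2, c3⟩ := exists_chi hc (m + 1)
    (fun y => (N y ∩ L.U y) ∩ ⋂ g ∈ (hfin y).toFinset, (g⁻¹ • ·) ⁻¹' V (g⁻¹ • y)) fun y =>
      inter_mem (inter_mem (hNx y) (L.nhd y)) ((biInter_finset_mem _).2 fun g _ =>
        (continuous_const_smul g⁻¹).continuousAt (hV _))
  have van : ∀ (l : List X) (g : G) (y : X), (∀ x ∈ l, g • x ∈ (N y ∩ L.U y) ∩
      ⋂ g ∈ (hfin y).toFinset, (g⁻¹ • ·) ⁻¹' V (g⁻¹ • y)) →
      (asC L m f).1 l = (δ (cut K b)).1 l := fun l g y h => by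
    by_cases hg : g ∈ (hfin y).toFinset
    · refine sub_eq_zero.1 (hVa (g⁻¹ • y) l fun x hx => ?_)
      have := mem_iInter₂.1 (h x hx).2 g hg
      rwa [mem_preimage, inv_smul_smul] at this
    · have h1 : ∀ x ∈ l, x ∉ C ∪ K := fun x hx hx' =>
        hg ((hfin y).mem_toFinset.2 ⟨x, hx', (h x hx).1.1⟩)
      rw [hfar l (L.smG fun x hx => (h x hx).1.2) fun x hx hx' => h1 x hx (Or.inl hx'),
        δ_val_zero (cut_val_zero b) l fun x hx hx' => h1 x hx (Or.inr hx')]
  have hBf : ∀ l : List X, (Function.support fun g : G => (cut K b).1 (g⁻¹ • l)).Finite := by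
    intro l
    cases l with
    | nil => exact finite_empty.subset fun g hg => hg (cut K b).2.1
    | cons x l =>
      refine (hact.proper K {x} hK isCompact_singleton).subset fun g hg => ?_
      refine ⟨g⁻¹ • x, by_contra fun h => hg (cut_cons_notMem _ h _), smul_inv_smul _ _⟩
  let B : List X → G →₀ ℂ := fun l => ofSupportFinite _ (hBf l)
  have hB : ∀ l g, B l g = (cut K b).1 (g⁻¹ • l) := fun _ _ => rfl
  have eB : Equi G B := fun g l => Finsupp.ext fun k => by
    rw [act_apply, hB, hB, smul_eq_mul, mul_inv_rev, inv_inv, mul_smul]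
  have eΦ : Equi G fun l => pf L.γ (χ l) := fun g l => by
    simp only [c1 g l, act_eq_pf, pf_pf, L.γ_smul, smul_eq_mul]
  have hh := bd_htp (P := fun l => l.length ≤ m + 1) hd (fun l => pf L.γ (χ l))
    (fun l l' h h' => h.length_le.trans h') (by rw [c2, pf_single]; rfl) fun l hl => by
      rw [bd_pf, (c3 l hl).1, map_lc]
  have hs := sup_htp (P := fun l => l.length ≤ m + 1) hd (fun l => pf L.γ (χ l)) (fun _ => univ)
    (fun l l' h h' => h.length_le.trans h') (fun _ _ _ => subset_rfl) (fun _ _ _ _ => trivial)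
    (fun _ _ _ => trivial) fun l hl => Sup.pf _ ((c3 l hl).2.mono fun l' h =>
      ⟨by simpa using h.1, fun _ _ => trivial⟩)
  refine ⟨fun l => lc B (χ l) + lc f (htp hd (fun l => pf L.γ (χ l)) l),
    (c1.comp eB).add ((equi_htp eΦ).comp hf), fun l hl => ?_⟩
  have h1 := congrArg (lc f) (hh l hl.le)
  rw [map_add, map_sub, lc_single, one_smul, lc_bd, lc_congr (v := fun _ => 0)
    fun l' hl' => hz l' (by have := (hs l hl.le l' hl').1; omega), lc_zero, zero_add,
    eq_sub_iff_add_eq] at h1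
  rw [lc_add, ← map_lc (lc B), ← map_lc (lc f), ← (c3 l hl.le).1, ← h1, add_comm]
  congr 1
  rw [lc_pf, lc_bd]
  refine lc_congr fun l' hl' => Finsupp.ext fun g => ?_
  obtain ⟨a1, g₀, y, a2⟩ := (c3 l hl.le).2 l' hl'
  have h2 := van (g⁻¹ • l') (g₀ * g) y fun x hx => by
    obtain ⟨x, hx', rfl⟩ := List.mem_map.1 hx
    rw [mul_smul, smul_inv_smul]
    exact a2 x hx'
  rw [asC_val, if_pos (by rw [length_smul]; omega), L.map_smul, hf.apply, inv_inv, δ_val, cob_lc,
    equi_bdL, lc_act] at h2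
  rw [h2, lc_apply]
  rfl

variable (G) in
/-- the cohomology of the group with coefficients in the group ring is concentrated in degree `n`,
where it has dimension at most one, with an action by signs -/
def Dual (n : ℕ) : Prop :=
  (∀ m, m ≠ n → ∀ f : List G → G →₀ ℂ, Equi G f → Coc (m + 1) f → Cob (m + 1) f) ∧
  ∃ (β : (List G → G →₀ ℂ) → ℂ) (w : G → ℤˣ),
    (∀ f, Equi G f → Coc (n + 1) f → β f = 0 → Cob (n + 1) f) ∧
    (∀ f, Cob (n + 1) f → β f = 0) ∧
    (∀ f f' (z : ℂ), Equi G f → Coc (n + 1) f → Equi G f' → Coc (n + 1) f' →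
      β (fun l => f l - z • f' l) = β f - z * β f') ∧
    ∀ f h, Equi G f → Coc (n + 1) f → β (fun l => rt h (f l)) = ((w h : ℤ) : ℂ) * β f

include L in
theorem dual_of [TopologicalSpace.MetrizableSpace X] [LocallyCompactSpace X] [SigmaCompactSpace X]
    [ContractibleSpace X] (hact : CoAct G X) (hc : ∀ i, CFillS ℂ G i) {n : ℕ}
    (hch : ∀ x : X, ∃ j : E (n + 1) → X, IsOpenEmbedding j ∧ x ∈ range j) : Dual G (n + 1) := by
  obtain ⟨β, h1, h2, h3, h4⟩ := hc_structure hch
  choose w hw using fun g : G => h4 (Homeomorph.smul g)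
  refine ⟨fun m hm f hf hz => cob_of_Bc L hact hc hf hz ((h2 _ (asC_Zc L hf hz)).1
    (h3 m (by omega) _ (asC_deg L m f))), fun f => β (asC L (n + 1) f), w,
    fun f hf hz h => cob_of_Bc L hact hc hf hz ((h2 _ (asC_Zc L hf hz)).1 h),
    fun f ⟨y, hy, h⟩ => ?_, fun f f' z hf hz hf' hz' => ?_, fun f h hf hz => ?_⟩
  · have := δ_mem_Bc (asC_compact L n hy)
    rw [δ_asC, ← asC_congr L h] at this
    exact (h2 _ (Bc_le_Zc this)).2 this
  · simp only []
    rw [asC_sub, h1 _ (asC_Zc L hf hz) _ (asC_Zc L hf' hz')]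
  · simp only []
    rw [asC_rt L _ hf]
    exact hw h _ (asC_Zc L hf hz)

end Vale.Agent.P239Z
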