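import Vale.Agent.P291Z.T13

set_option linter.all false

/-!
# Integer valued cochains; the local degree of an open embedding of Euclidean spaces is `1` or `-1`
-/

namespace Vale.Agent.P239Z

open Topology Set Filter Metric Vale.Agent.P291Z

variable {X Y : Type}

/-- integer valued cochains -/
def IsInt (a : Coch X) : Prop := ∀ l, ∃ m : ℤ, a.1 l = m

theorem IsInt.pull {a : Coch Y} (h : IsInt a) (f : X → Y) : IsInt (pull f a) := fun l => h _

theorem IsInt.cut {a : Coch X} (h : IsInt a) (S : Set X) : IsInt (cut S a) := fun l => by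
  rw [cut_val]
  split_ifs
  · exact h l
  · exact ⟨0, by simp⟩

theorem lin_int {a : List X → ℂ} (h : ∀ l, ∃ m : ℤ, a l = m) (c : Chn.Ch X) :
    ∃ m : ℤ, Chn.lin a c = m := by
  induction c using Finsupp.induction_linear with
  | zero => exact ⟨0, by simp⟩
  | add b c hb hc =>
    obtain ⟨m, hm⟩ := hb
    obtain ⟨k, hk⟩ := hc
    exact ⟨m + k, by rw [map_add, hm, hk]; push_cast; rfl⟩
  | single l r =>
    obtain ⟨m, hm⟩ := h l
    exact ⟨r * m, by rw [Chn.lin_single, hm]; simp⟩

theorem IsInt.prismOp {a : Coch Y} (h : IsInt a) (f g : X → Y) : IsInt (prismOp f g a) :=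
  fun l => lin_int h _

theorem IsInt.δ {a : Coch X} (h : IsInt a) : IsInt (δ a) := fun l => by
  rw [δ_val, cob_eq_lin]
  exact lin_int h _

theorem IsInt.sum {ι : Type*} (s : Finset ι) {a : ι → Coch X} (h : ∀ i, IsInt (a i)) :
    IsInt (∑ i ∈ s, a i) := fun l => by
  choose m hm using fun i => h i l
  exact ⟨∑ i ∈ s, m i, by rw [Coch.sum_val]; push_cast; exact Finset.sum_congr rfl fun i _ => hm i⟩

theorem IsInt.mul {a b : Coch X} (ha : IsInt a) (hb : IsInt b) : IsInt (a * b) := fun l => by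
  choose m hm using ha
  choose k hk using hb
  refine ⟨∑ p ∈ Finset.range l.length, m (l.take (p + 1)) * k (l.drop p), ?_⟩
  rw [Coch.mul_val, cup]
  push_cast
  exact Finset.sum_congr rfl fun p _ => by rw [hm, hk]

theorem isInt_one : IsInt (1 : Coch X) := fun l => by
  rw [Coch.one_val, P291Z.unit]
  split_ifs
  · exact ⟨1, by simp⟩
  · exact ⟨0, by simp⟩

theorem isInt_stp : IsInt stp := fun l => by
  match l with
  | [] => exact ⟨0, by simp [stp, fn]⟩
  | [x] =>
    rw [stp, fn_val]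
    split_ifs
    · exact ⟨1, by simp⟩
    · exact ⟨0, by simp⟩
  | _ :: _ :: _ => exact ⟨0, by simp [stp, fn]⟩

/-- Euclidean space -/
abbrev E (n : ℕ) : Type := Fin n → ℝ

/-- the standard generator -/
noncomputable def tn (n : ℕ) : Coch (E n) := powC (δ stp) n

theorem tn_gen (n : ℕ) : IsGen n (tn n) := by
  have := isGen_real.powC n
  rwa [mul_one] at this

theorem tn_supp (n : ℕ) : supp (tn n) ⊆ {0} := fun v hv =>
  funext fun i => supp_δ_stp (supp_powC _ _ hv i)

theorem tn_van {n : ℕ} {v : E n} (hv : v ≠ 0) : tn n ∈ Van v := fun h => hv (tn_supp n h)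

theorem tn_succ (n : ℕ) : tn (n + 1) =
    pull (fun z => z 0) (δ stp) * pull (fun z (i : Fin n) => z i.succ) (tn n) := powC_succ _ _

theorem tn_int (n : ℕ) : IsInt (tn n) := by
  induction n with
  | zero => rw [tn, powC_zero]; exact isInt_one
  | succ n ih => rw [tn_succ]; exact (isInt_stp.δ.pull _).mul (ih.pull _)

theorem δ_tn (n : ℕ) : δ (tn n) = 0 := by
  induction n with
  | zero => rw [tn, powC_zero]; exact δ_one_eq_zero
  | succ n ih => rw [tn_succ, δ_mul, δ_pull, δ_pull, δ_δ, ih]; simp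

/-- the slice at height `r` -/
def sl {n : ℕ} (r : ℝ) (v : E n) : E (n + 1) := Fin.cons r v

theorem norm_le_sl {n : ℕ} (r : ℝ) (v : E n) : ‖v‖ ≤ ‖sl r v‖ :=
  (pi_norm_le_iff_of_nonneg (norm_nonneg _)).2 fun i => norm_le_pi_norm (sl r v) i.succ

theorem abs_le_sl {n : ℕ} (r : ℝ) (v : E n) : |r| ≤ ‖sl r v‖ := norm_le_pi_norm (sl r v) 0

theorem dist_sl {n : ℕ} {r r' δ : ℝ} {v v' : E n} (h : |r - r'| < δ) (h' : dist v v' < δ) :
    dist (sl r v) (sl r' v') < δ := by
  refine (dist_pi_lt_iff (lt_of_le_of_lt (abs_nonneg _) h)).2 fun i => ?_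
  refine Fin.cases ?_ (fun i => ?_) i
  · exact h
  · exact (dist_le_pi_dist v v' i).trans_lt h'

theorem norm_sl_le {n : ℕ} {r R : ℝ} {v : E n} (h : |r| ≤ R) (h' : ‖v‖ ≤ R) : ‖sl r v‖ ≤ R := by
  refine (pi_norm_le_iff_of_nonneg ((abs_nonneg _).trans h)).2 fun i => ?_
  refine Fin.cases ?_ (fun i => ?_) i
  · exact h
  · exact (norm_le_pi_norm v i).trans h'

/-- the points of a partition of `[-R, R]` -/
noncomputable def pt (R : ℝ) (N k : ℕ) : ℝ := -R + 2 * R * k / N

/-- integration along the first coordinate -/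
noncomputable def intg {n : ℕ} (R : ℝ) (N : ℕ) : Coch (E (n + 1)) →ₗ[ℂ] Coch (E n) :=
  ∑ k ∈ Finset.range N, prismOp (sl (pt R N k)) (sl (pt R N (k + 1)))

theorem intg_apply {n : ℕ} (R : ℝ) (N : ℕ) (a : Coch (E (n + 1))) : intg R N a =
    ∑ k ∈ Finset.range N, prismOp (sl (pt R N k)) (sl (pt R N (k + 1))) a := by
  rw [intg, LinearMap.sum_apply]

theorem intg_δ {n : ℕ} (R : ℝ) {N : ℕ} (hN : 0 < N) (a : Coch (E (n + 1))) :
    δ (intg R N a) + intg R N (δ a) = pull (sl R) a - pull (sl (-R)) a := by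
  rw [intg_apply, intg_apply, map_sum, ← Finset.sum_add_distrib]
  simp only [prismOp_δ]
  rw [Finset.sum_range_sub (fun k => pull (sl (pt R N k)) a)]
  have : (N : ℝ) ≠ 0 := by positivity
  have e1 : pt R N N = R := by rw [pt]; field_simp; ring
  have e2 : pt R N 0 = -R := by simp [pt]
  rw [e1, e2]

theorem intg_van {n : ℕ} (R : ℝ) (N : ℕ) {a : Coch (E (n + 1))} {v : E n} {U : Set (E n)}
    (hU : U ∈ 𝓝 v) {W : Set (E (n + 1))} (hW : ∀ m : List _, (∀ y ∈ m, y ∈ W) → a.1 m = 0)
    (h : ∀ r, ∀ u ∈ U, sl r u ∈ W) : intg R N a ∈ Van v := by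
  rw [intg_apply]
  exact (Van v).sum_mem fun k _ => notMem_supp.2 ⟨U, hU, fun l hl =>
    prismOp_val_eq_zero _ _ hW fun x hx => ⟨h _ x (hl x hx), h _ x (hl x hx)⟩⟩

theorem intg_null {n : ℕ} {R : ℝ} (hR : 0 < R) {a : Coch (E (n + 1))} (ha : ∀ x, a ∈ Van x) :
    ∀ᶠ N in atTop, ∀ v : E n, ‖v‖ ≤ R → intg R N a ∈ Van v := by
  choose U hU hUa using fun x => notMem_supp.1 (ha x)
  obtain ⟨ε, hε, h⟩ := lebesgue_number_lemma_of_metric (isCompact_closedBall (0 : E (n + 1)) R)
    (c := fun x => interior (U x)) (fun x => isOpen_interior)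
    fun x _ => mem_iUnion.2 ⟨x, mem_interior_iff_mem_nhds.2 (hU x)⟩
  have hev : ∀ᶠ N : ℕ in atTop, 2 * R / N < ε :=
    (tendsto_order.1 (tendsto_const_div_atTop_nhds_zero_nat (2 * R))).2 ε hε
  filter_upwards [hev, eventually_gt_atTop 0] with N hN hN0 v hv
  have hN' : (0 : ℝ) < N := by exact_mod_cast hN0
  rw [intg_apply]
  refine (Van v).sum_mem fun k hk => ?_
  have hk' : (k : ℝ) ≤ N := by exact_mod_cast (Finset.mem_range.1 hk).le
  have h1 : |pt R N k| ≤ R := by
    have h2 : 0 ≤ 2 * R * k / N := by positivity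
    have h3 : 2 * R * k / N ≤ 2 * R := by
      rw [div_le_iff₀ hN']
      nlinarith
    rw [abs_le, pt]
    constructor <;> linarith
  obtain ⟨x, hx⟩ := h (sl (pt R N k) v) (mem_closedBall_zero_iff.2 (norm_sl_le h1 hv))
  refine notMem_supp.2 ⟨ball v ε, ball_mem_nhds v hε, fun l hl =>
    prismOp_val_eq_zero _ _ (hUa x) fun u hu => ⟨interior_subset (hx ?_), interior_subset (hx ?_)⟩⟩
  · exact dist_sl (by simpa using hε) (hl u hu)
  · refine dist_sl ?_ (hl u hu)
    have : pt R N (k + 1) - pt R N k = 2 * R / N := by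
      rw [pt, pt]; push_cast; ring
    rw [this, abs_of_nonneg (by positivity)]
    exact hN

theorem cut_val_zero {S : Set X} (a : Coch X) (m : List X) (hm : ∀ y ∈ m, y ∈ Sᶜ) :
    (cut S a).1 m = 0 := by
  cases m with
  | nil => exact (cut S a).2.1
  | cons y m => exact cut_cons_notMem _ (hm y (by simp)) _

theorem δ_val_zero {W : Set X} {a : Coch X} (h : ∀ m : List X, (∀ y ∈ m, y ∈ W) → a.1 m = 0)
    (m : List X) (hm : ∀ y ∈ m, y ∈ W) : (δ a).1 m = 0 := by
  rw [δ_val, cob_eq_lin]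
  exact Chn.lin_eq_zero (Chn.bd0_on m) fun m' hm' => h m' fun y hy => hm y (hm'.1.subset hy)

theorem sub_cut_null [TopologicalSpace X] {a : Coch X} {K : Set X}
    (h : ∀ x ∈ supp a, K ∈ 𝓝 x) (x : X) : a - cut K a ∈ Van x := by
  by_cases hx : x ∈ supp a
  · exact cut_in (h x hx) a
  · exact (Van x).sub_mem hx (Van.cut hx K)

/-- **Integrality**: the class of an integer valued cocycle is an integer multiple of the standard
generator. -/
theorem int_deg (n : ℕ) : ∀ s ∈ Zc (E n), IsInt s → ∀ z : ℂ, cls s = z • cls (tn n) →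
    ∃ m : ℤ, z = m := by
  induction n with
  | zero =>
    intro s hs hi z hz
    rw [← cls_smul z (tn_gen 0).mem, cls_eq_iff hs ((Zc _).smul_mem z (tn_gen 0).mem)] at hz
    obtain ⟨c, -, hc⟩ := hz
    have := Van.val_single (supp_eq_empty.1 hc 0)
    rw [Coch.sub_val, Coch.sub_val, Pi.sub_apply, Pi.sub_apply, δ_val_single, tn, powC_zero,
      Coch.smul_val, Coch.one_val] at this
    obtain ⟨m, hm⟩ := hi [0]
    refine ⟨m, ?_⟩
    rw [hm] at this
    simp [P291Z.unit] at this
    exact (sub_eq_zero.1 this).symm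
  | succ n ih =>
    intro s hs hi z hz
    rw [← cls_smul z (tn_gen _).mem, cls_eq_iff hs ((Zc _).smul_mem z (tn_gen _).mem)] at hz
    obtain ⟨c, hc, ha⟩ := hz
    obtain ⟨R₀, hR₀, hb⟩ := (hs.1.union hc).isBounded.subset_ball_lt 0 0
    let K : Set (E (n + 1)) := closedBall 0 R₀
    have hK : ∀ x ∈ supp s ∪ supp c, K ∈ 𝓝 x := fun x hx =>
      mem_of_superset (isOpen_ball.mem_nhds (hb hx)) ball_subset_closedBall
    have hs' := sub_cut_null fun x hx => hK x (Or.inl hx)
    have hc' := sub_cut_null fun x hx => hK x (Or.inr hx)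
    have n1 : ∀ x, δ (cut K s) ∈ Van x := fun x => by
      have := (Van x).sub_mem (supp_eq_empty.1 hs.2 x) (Van.δ (hs' x))
      rwa [map_sub, sub_sub_cancel] at this
    have n2 : ∀ x, cut K s - z • tn (n + 1) - δ (cut K c) ∈ Van x := fun x => by
      have := (Van x).add_mem ((Van x).sub_mem (supp_eq_empty.1 ha x) (hs' x)) (Van.δ (hc' x))
      rw [map_sub] at this
      rwa [show cut K s - z • tn (n + 1) - δ (cut K c) =
        s - z • tn (n + 1) - δ c - (s - cut K s) + (δ c - δ (cut K c)) by abel]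
    have hR : 0 < R₀ + 1 := by linarith
    obtain ⟨N, ⟨e1, e2⟩, hN⟩ := (((intg_null hR n1).and (intg_null hR n2)).and
      (eventually_gt_atTop 0)).exists
    have far : ∀ {a : Coch (E (n + 1))}, (∀ m : List _, (∀ y ∈ m, y ∈ Kᶜ) → a.1 m = 0) →
        ∀ v : E n, R₀ < ‖v‖ → intg (R₀ + 1) N a ∈ Van v := fun h v hv =>
      intg_van _ _ ((isOpen_lt continuous_const continuous_norm).mem_nhds hv) h fun r u hu hm =>
        absurd ((norm_le_sl r u).trans (mem_closedBall_zero_iff.1 hm)) (not_le.2 hu)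
    have ends : ∀ (a : Coch (E (n + 1))) (r : ℝ), |r| = R₀ + 1 → pull (sl r) (cut K a) = 0 :=
      fun a r hr => Coch.ext fun l => cut_val_zero a _ fun y hy hm => by
        obtain ⟨u, -, rfl⟩ := List.mem_map.1 hy
        have := (abs_le_sl r u).trans (mem_closedBall_zero_iff.1 hm)
        linarith
    have hδ : ∀ a : Coch (E (n + 1)), intg (R₀ + 1) N (δ (cut K a)) =
        -δ (intg (R₀ + 1) N (cut K a)) := fun a => by
      have := intg_δ (R₀ + 1) hN (cut K a)
      rw [ends a _ (abs_of_pos hR), ends a _ (by rw [abs_neg, abs_of_pos hR]), sub_zero] at this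
      exact eq_neg_of_add_eq_zero_right this
    have cpt : ∀ a : Coch (E (n + 1)), IsCompact (supp (intg (R₀ + 1) N (cut K a))) := fun a =>
      isCompact_supp_of_subset (isCompact_closedBall 0 R₀) fun v hv =>
        mem_closedBall_zero_iff.2 (not_lt.1 fun h => far (cut_val_zero a) v h hv)
    let q : Coch (E (n + 1)) :=
      pull (fun z => z 0) stp * pull (fun z (i : Fin n) => z i.succ) (tn n)
    have hq : δ q = tn (n + 1) := by
      rw [δ_mul, δ_pull, δ_pull, δ_tn, tn_succ]; simp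
    have hq1 : ∀ r, pull (sl r) q = (if r ≤ 0 then (1 : ℂ) else 0) • tn n := fun r => by
      rw [map_mul, pull_pull, pull_pull, stp, pull_fn]
      change fn (fun _ => if r ≤ 0 then (1 : ℂ) else 0) * pull id (tn n) = _
      rw [fn_const, pull_id, smul_mul_assoc, one_mul]
    have hq2 : intg (R₀ + 1) N (tn (n + 1)) = -tn n - δ (intg (R₀ + 1) N q) := by
      have := intg_δ (R₀ + 1) hN q
      rw [hq, hq1, hq1, if_neg (by linarith), if_pos (by linarith), zero_smul, one_smul,
        zero_sub] at this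
      rw [← this]; abel
    have hq3 : ∀ v : E n, v ≠ 0 → intg (R₀ + 1) N q ∈ Van v := fun v hv => by
      obtain ⟨U, hU, h⟩ := notMem_supp.1 (tn_van hv)
      refine intg_van _ _ hU (W := {z | (fun i : Fin n => z i.succ) ∈ U}) (fun m hm => ?_)
        fun r u hu => hu
      rw [Coch.mul_val, cup]
      refine Finset.sum_eq_zero fun p _ => ?_
      rw [pull_val _ (tn n), h, mul_zero]
      intro y hy
      obtain ⟨x, hx, rfl⟩ := List.mem_map.1 hy
      exact hm x (List.mem_of_mem_drop hx)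
    have hZ : intg (R₀ + 1) N (cut K s) ∈ Zc (E n) := ⟨cpt s, supp_eq_empty.2 fun v => by
      rw [← neg_neg (δ _), ← hδ]
      refine (Van v).neg_mem ?_
      by_cases hv : ‖v‖ ≤ R₀ + 1
      · exact e1 v hv
      · exact far (δ_val_zero (cut_val_zero s)) v (by linarith)⟩
    have key : cls (intg (R₀ + 1) N (cut K s)) = (-z) • cls (tn n) := by
      rw [← cls_smul _ (tn_gen _).mem, cls_eq_iff hZ ((Zc _).smul_mem _ (tn_gen _).mem)]
      refine ⟨-(z • intg (R₀ + 1) N q) - intg (R₀ + 1) N (cut K c), ?_, supp_eq_empty.2 fun v => ?_⟩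
      · refine isCompact_supp_of_subset ((isCompact_singleton (x := (0 : E n))).union (cpt c))
          ((supp_sub _ _).trans (union_subset_union_left _ fun v hv => ?_))
        rw [supp_neg] at hv
        exact by_contra fun h => hq3 v h (supp_smul _ _ hv)
      · by_cases hv : ‖v‖ ≤ R₀ + 1
        · have := e2 v hv
          rw [map_sub, map_sub, map_smul, hδ, hq2] at this
          rw [map_sub, map_neg, map_smul]
          rwa [show intg (R₀ + 1) N (cut K s) - -z • tn n - (-(z • δ (intg (R₀ + 1) N q)) -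
            δ (intg (R₀ + 1) N (cut K c))) = intg (R₀ + 1) N (cut K s) -
              z • (-tn n - δ (intg (R₀ + 1) N q)) - -δ (intg (R₀ + 1) N (cut K c)) by
                rw [smul_sub, neg_smul, smul_neg]; abel]
        · have hv0 : v ≠ 0 := by
            rintro rfl
            rw [norm_zero] at hv
            linarith
          exact (Van v).sub_mem ((Van v).sub_mem (far (cut_val_zero s) v (by linarith))
            ((Van v).smul_mem _ (tn_van hv0))) (Van.δ ((Van v).sub_mem ((Van v).neg_mem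
              ((Van v).smul_mem _ (hq3 v hv0))) (far (cut_val_zero c) v (by linarith))))
    obtain ⟨m, hm⟩ := ih _ hZ (by
      rw [intg_apply]
      exact IsInt.sum _ fun k => (hi.cut K).prismOp _ _) _ key
    exact ⟨-m, by push_cast; rw [← hm, neg_neg]⟩

end Vale.Agent.P239Z
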