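import Vale.Agent.P239Z.Sing

set_option linter.all false

/-!
# The L2-Betti numbers of closed aspherical manifolds in the top degrees
-/

namespace Vale.Agent.P239Z

open Vale.Agent.P239 Vale.Agent.P239.M Set Topology

variable {M Γ : Type*} [TopologicalSpace M] [T2Space M] [CompactSpace M] [Group Γ]

theorem sigma_of_cover {X : Type*} [TopologicalSpace X] [ContractibleSpace X] [MulAction Γ X]
    {p : X → M} (hp : IsQuotientCoveringMap p Γ) : SigmaCompactSpace X := by
  obtain ⟨hX, B, hB, hcov⟩ := H260.exists_cocomp hp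
  have hcs : ContinuousConstSMul Γ X := hp.toContinuousConstSMul
  have hcount : Countable Γ := H260.countable_deck hp
  refine SigmaCompactSpace.of_countable (range fun g : Γ => (fun x => g • x) '' B)
    (countable_range _) ?_ (eq_univ_of_forall fun x => ?_)
  · rintro _ ⟨g, rfl⟩
    exact hB.image (continuous_const_smul g)
  · obtain ⟨g, y, hy, rfl⟩ := hcov x
    exact ⟨_, ⟨g, rfl⟩, y, hy, rfl⟩

theorem cfill_of_cover (n : ℕ) [ChartedSpace (EuclideanSpace ℝ (Fin n)) M]
    {X : Type*} [TopologicalSpace X] [ContractibleSpace X] [MulAction Γ X]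
    {p : X → M} (hp : IsQuotientCoveringMap p Γ) (i : ℕ) : CFillS ℂ Γ i := by
  have hM : SecondCountableTopology M :=
    ChartedSpace.secondCountable_of_sigmaCompact (EuclideanSpace ℝ (Fin n)) M
  have hm := H260.metrizable_of_cover hp
  have hlc := (H260.exists_cocomp hp).1
  have hact := H260.coAct_of_cover hp
  letI : MetricSpace X := TopologicalSpace.metrizableSpaceMetric X
  exact cfillS ℂ hact (fillS ℂ X) i (psiS ℂ hact (fillS ℂ X) i)

theorem dual_of_cover₀ {n : ℕ} [ChartedSpace (EuclideanSpace ℝ (Fin (n + 1))) M] {X : Type}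
    [TopologicalSpace X] [ContractibleSpace X] [MulAction Γ X]
    {p : X → M} (hp : IsQuotientCoveringMap p Γ) : Dual Γ (n + 1) := by
  have hM : SecondCountableTopology M :=
    ChartedSpace.secondCountable_of_sigmaCompact (EuclideanSpace ℝ (Fin (n + 1))) M
  have hm := H260.metrizable_of_cover hp
  have hlc := (H260.exists_cocomp hp).1
  have hs := sigma_of_cover hp
  have hcs : ContinuousConstSMul Γ X := hp.toContinuousConstSMul
  obtain ⟨L⟩ := exists_lab hp
  exact dual_of L (H260.coAct_of_cover hp) (cfill_of_cover (n + 1) hp) fun x =>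
    (H260.chart_of_cover hp (n + 1) x).imp fun j h => ⟨h.1, 0, h.2⟩

theorem dual_of_cover {n : ℕ} [ChartedSpace (EuclideanSpace ℝ (Fin (n + 1))) M] {X : Type*}
    [TopologicalSpace X] [ContractibleSpace X] [MulAction Γ X] {p : X → M}
    (hp : IsQuotientCoveringMap p Γ) : Dual Γ (n + 1) := by
  have hM : SecondCountableTopology M :=
    ChartedSpace.secondCountable_of_sigmaCompact (EuclideanSpace ℝ (Fin (n + 1))) M
  have hm := H260.metrizable_of_cover hp
  have hs := sigma_of_cover hp
  have hcs : ContinuousConstSMul Γ X := hp.toContinuousConstSMul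
  have hsm : Small.{0} X := by
    letI : MetricSpace X := TopologicalSpace.metrizableSpaceMetric X
    exact small_of_injective (kuratowskiEmbedding.isometry X).injective
  let e := (Shrink.homeomorph.{0} X).symm
  have he : ∀ (g : Γ) x, e (g • x) = g • e x := equivShrink_symm_smul
  have hc : ContractibleSpace (Shrink.{0} X) := e.contractibleSpace
  refine dual_of_cover₀ (M := M) (n := n) (X := Shrink.{0} X) (p := p ∘ e)
    { toIsQuotientMap := hp.toIsQuotientMap.comp e.isQuotientMap
      continuous_const_smul := fun g => ?_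
      apply_eq_iff_mem_orbit := fun {x y} => hp.apply_eq_iff_mem_orbit.trans
        (exists_congr fun g => by simp only [← he, e.injective.eq_iff])
      disjoint := fun x => ?_ }
  · rw [← e.comp_continuous_iff]
    exact ((continuous_const_smul g).comp e.continuous).congr fun x => (he g x).symm
  · obtain ⟨U, hU, h⟩ := hp.disjoint (e x)
    refine ⟨e ⁻¹' U, e.continuous.continuousAt hU, fun g ⟨_, ⟨y, hy, rfl⟩, hy'⟩ =>
      h g ⟨_, ⟨e y, hy, (he g y).symm⟩, hy'⟩⟩

/-- **degrees at least `n - 1`** -/
theorem betti_high {n : ℕ} (hn : 3 ≤ n) [ChartedSpace (EuclideanSpace ℝ (Fin n)) M] {X : Type*}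
    [TopologicalSpace X] [ContractibleSpace X] [MulAction Γ X] [ContinuousConstSMul Γ X] {p : X → M}
    (hp : IsQuotientCoveringMap p Γ) {q : ℕ} (hq : n ≤ q + 1) : bettiTwo Γ X q = 0 := by
  obtain ⟨n, rfl⟩ : ∃ k, n = k + 1 := ⟨n - 1, by omega⟩
  obtain ⟨q, rfl⟩ : ∃ k, q = k + 1 := ⟨q - 1, by omega⟩
  have hinf := H269.infinite_of_cover (n := n + 1) (by omega) hp
  have hlc := (H260.exists_cocomp hp).1
  obtain ⟨L⟩ := exists_lab hp
  obtain ⟨T, hT⟩ := exists_dom L (cfill_of_cover (n + 1) hp)
  have h1 := H260.singer_n hn p hp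
  rw [bettiTwo_succ _ _ 0] at h1
  exact betti_top (n := n) L.γ_smul hT (dual_of_cover hp) (fg_of_cover hp)
    ((l2Betti_one_eq (H260.coAct_of_cover hp).free).symm.trans h1) (by omega)

end Vale.Agent.P239Z
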