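import Vale.Agent.P239Z.Dim

set_option linter.all false

/-!
# Comparison of singular chains with chains of the group
-/

namespace Vale.Agent.P239Z

open Finsupp Vale.Agent.P239 Vale.Agent.P239.M unitInterval Topology

/-- singular simplices with `p` vertices -/
abbrev Sx (X : Type*) [TopologicalSpace X] (p : ℕ) := C(stdSimplex ℝ (Fin p), X)

variable {X : Type*} [TopologicalSpace X] {p : ℕ}

/-- faces -/
noncomputable def fc (i : Fin (p + 1)) (s : Sx X (p + 1)) : Sx X p :=
  s.comp ⟨stdSimplex.map i.succAbove, stdSimplex.continuous_map _⟩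

theorem map_at {q : ℕ} {f : Fin p → Fin q} (hf : Function.Injective f) (u : stdSimplex ℝ (Fin p))
    (a : Fin p) : stdSimplex.map f u (f a) = u a := by
  rw [stdSimplex.map_coe, FunOnFinite.linearMap_apply_apply, Finset.sum_eq_single a]
  · exact fun b hb hba => absurd (hf (Finset.mem_filter.1 hb).2) hba
  · simp

theorem map_off {q : ℕ} {f : Fin p → Fin q} (u : stdSimplex ℝ (Fin p)) {b : Fin q}
    (h : ∀ a, f a ≠ b) : stdSimplex.map f u b = 0 := by
  rw [stdSimplex.map_coe, FunOnFinite.linearMap_apply_apply]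
  exact Finset.sum_eq_zero fun a ha => absurd (Finset.mem_filter.1 ha).2 (h a)

/-- projection from the first vertex -/
noncomputable def nrm (t : stdSimplex ℝ (Fin (p + 1))) (h : t 0 ≠ 1) : stdSimplex ℝ (Fin p) :=
  ⟨fun i => t i.succ / (1 - t 0), fun i => div_nonneg (stdSimplex.zero_le t _)
    (sub_nonneg.2 (stdSimplex.le_one t 0)), by
      rw [← Finset.sum_div, div_eq_one_iff_eq (sub_ne_zero.2 h.symm), ← stdSimplex.sum_eq_one t,
        Fin.sum_univ_succ]
      ring⟩

theorem nrm_apply (t : stdSimplex ℝ (Fin (p + 1))) (h : t 0 ≠ 1) (i : Fin p) :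
    nrm t h i = t i.succ / (1 - t 0) := rfl

/-- the collapse map -/
noncomputable def col (q : I × stdSimplex ℝ (Fin p)) : stdSimplex ℝ (Fin (p + 1)) :=
  ⟨Fin.cons (q.1 : ℝ) fun i => (1 - q.1) * q.2 i, Fin.cases q.1.2.1 fun i =>
    mul_nonneg (one_minus_nonneg q.1) (stdSimplex.zero_le q.2 i), by
      rw [Fin.sum_cons, ← Finset.mul_sum, stdSimplex.sum_eq_one]
      ring⟩

theorem continuous_col : Continuous (col (p := p)) := by
  refine Continuous.subtype_mk (continuous_pi fun i => ?_) _
  have h0 : Continuous fun q : I × stdSimplex ℝ (Fin p) => (q.1 : ℝ) :=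
    continuous_subtype_val.comp continuous_fst
  exact Fin.cases h0 (fun j => (continuous_const.sub h0).mul
    ((continuous_apply j).comp (continuous_subtype_val.comp continuous_snd))) i

/-- the first coordinate -/
def fst (t : stdSimplex ℝ (Fin (p + 1))) : I :=
  ⟨t 0, stdSimplex.zero_le t 0, stdSimplex.le_one t 0⟩

theorem col_surj : Function.Surjective (col (p := p + 1)) := fun t => by
  by_cases h : t 0 = 1
  · refine ⟨(1, stdSimplex.vertex 0), stdSimplex.ext (funext fun i => ?_)⟩
    refine Fin.cases h.symm (fun j => ?_) i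
    have h1 := stdSimplex.sum_eq_one t
    rw [Fin.sum_univ_succ, h, add_eq_left] at h1
    rw [(Finset.sum_eq_zero_iff_of_nonneg fun i _ => stdSimplex.zero_le t _).1 h1 j
      (Finset.mem_univ _)]
    change (1 - (1 : ℝ)) * _ = 0
    rw [sub_self, zero_mul]
  · exact ⟨(fst t, nrm t h), stdSimplex.ext (funext fun i => Fin.cases rfl
      (fun j => mul_div_cancel₀ _ (sub_ne_zero.2 (Ne.symm h))) i)⟩

theorem exists_cone' [ContractibleSpace X] : ∃ c : ∀ p, Sx X p → Sx X (p + 1),
    (∀ p s, fc 0 (c p s) = s) ∧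
    ∀ p (s : Sx X (p + 1)) (i : Fin (p + 1)), fc i.succ (c (p + 1) s) = c p (fc i s) := by
  classical
  obtain ⟨x₀, ⟨H⟩⟩ := id_nullhomotopic X
  let c : ∀ p, Sx X p → stdSimplex ℝ (Fin (p + 1)) → X := fun p s t =>
    if h : t 0 = 1 then x₀ else H (fst t, s (nrm t h))
  have c1 : ∀ p s t, t 0 = 1 → c p s t = x₀ := fun p s t h => dif_pos h
  have c2 : ∀ p s t (h : t 0 ≠ 1), c p s t = H (fst t, s (nrm t h)) := fun p s t h => dif_neg h
  have hc : ∀ p s, Continuous (c p s) := fun p s => by
    cases p with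
    | zero => exact continuous_of_const fun x y => congrArg _ (Subsingleton.elim x y)
    | succ p =>
      rw [(continuous_col.isClosedMap.isQuotientMap continuous_col col_surj).continuous_iff]
      refine (H.continuous.comp (continuous_fst.prodMk (s.continuous.comp continuous_snd))).congr
        fun q => ?_
      change H (q.1, s q.2) = c _ s (col q)
      by_cases h : col q 0 = 1
      · rw [show q.1 = 1 from Subtype.ext h, H.apply_one, c1 _ _ _ h]
        rfl
      · rw [c2 _ _ _ h, show nrm (col q) h = q.2 from stdSimplex.ext (funext fun i =>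
          mul_div_cancel_left₀ _ (sub_ne_zero.2 (Ne.symm h)))]
        rfl
  refine ⟨fun p s => ⟨c p s, hc p s⟩, fun p s => ContinuousMap.ext fun u => ?_,
    fun p s i => ContinuousMap.ext fun u => ?_⟩
  · have h0 : stdSimplex.map (Fin.succAbove 0) u 0 = 0 := map_off u fun a => Fin.succ_ne_zero a
    have h1 : stdSimplex.map (Fin.succAbove 0) u 0 ≠ 1 := by rw [h0]; exact zero_ne_one
    refine (c2 _ _ _ h1).trans ?_
    rw [show fst (stdSimplex.map (Fin.succAbove 0) u) = 0 from Subtype.ext h0, H.apply_zero]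
    refine congrArg s (stdSimplex.ext (funext fun j => ?_))
    rw [nrm_apply, h0, sub_zero, div_one]
    exact map_at (Fin.succ_injective _) u j
  · have h0 : stdSimplex.map i.succ.succAbove u 0 = u 0 := by
      rw [← map_at Fin.succAbove_right_injective u 0, Fin.succ_succAbove_zero]
    change c _ s (stdSimplex.map i.succ.succAbove u) = c _ (fc i s) u
    by_cases h : u 0 = 1
    · rw [c1 _ _ _ (h0.trans h), c1 _ _ _ h]
    · rw [c2 _ _ _ fun h' => h (h0.symm.trans h'), c2 _ _ _ h,
        show fst (stdSimplex.map i.succ.succAbove u) = fst u from Subtype.ext h0]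
      refine congrArg (fun y => H (fst u, s y)) (stdSimplex.ext (funext fun j => ?_))
      change nrm _ _ j = stdSimplex.map i.succAbove (nrm u h) j
      rw [nrm_apply, h0]
      rcases Fin.eq_self_or_eq_succAbove i j with rfl | ⟨k, rfl⟩
      · rw [map_off u fun a => Fin.succAbove_ne _ a, map_off _ fun a => Fin.succAbove_ne _ a,
          zero_div]
      · rw [← Fin.succ_succAbove_succ, map_at Fin.succAbove_right_injective,
          map_at Fin.succAbove_right_injective, nrm_apply]

/-- the boundary of a simplex -/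
noncomputable def dS (s : Sx X (p + 1)) : Sx X p →₀ ℂ := ∑ i, single (fc i s) ((-1) ^ (i : ℕ))

theorem lc_dS {M : Type*} [AddCommGroup M] [Module ℂ M] (u : Sx X p → M) (s : Sx X (p + 1)) :
    lc u (dS s) = ∑ i : Fin (p + 1), (-1 : ℂ) ^ (i : ℕ) • u (fc i s) := by
  simp only [dS, map_sum, lc_single]

theorem sing_exact [ContractibleSpace X] (c : Sx X (p + 1) →₀ ℂ) (hc : lc dS c = 0) :
    ∃ w : Sx X (p + 2) →₀ ℂ, lc dS w = c := by
  obtain ⟨k, k1, k2⟩ := exists_cone' (X := X)
  have h : ∀ s : Sx X (p + 1), lc dS (single (k _ s) 1) =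
      single s 1 - lc (fun s => single (k _ s) 1) (dS s) := fun s => by
    rw [lc_single, one_smul, lc_dS, dS, Fin.sum_univ_succ, k1, sub_eq_add_neg,
      ← Finset.sum_neg_distrib]
    simp [k2, pow_succ]
  refine ⟨lc (fun s => single (k _ s) 1) c, ?_⟩
  rw [map_lc]
  simp only [h]
  rw [lc_sub, lc_self, ← map_lc, hc, map_zero, sub_zero]

theorem dS_dS (s : Sx X (p + 2)) : lc dS (dS s) = 0 := by
  rw [lc_dS]
  simp only [dS, Finset.smul_sum, smul_single, smul_eq_mul, ← pow_add]
  rw [← Finset.sum_product']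
  refine Finset.sum_involution (fun a _ => (a.1.succAbove a.2, a.2.predAbove a.1))
    (fun a _ => ?_) (fun a _ _ h => Fin.succAbove_ne _ _ (congrArg Prod.fst h))
    (fun _ _ => Finset.mem_univ _) fun a _ => Prod.ext (Fin.succAbove_succAbove_predAbove _ _)
      (Fin.predAbove_predAbove_succAbove _ _)
  have : fc (a.2.predAbove a.1) (fc (a.1.succAbove a.2) s) = fc a.2 (fc a.1 s) :=
    ContinuousMap.ext fun u => congrArg s (by
      change stdSimplex.map _ (stdSimplex.map _ u) = stdSimplex.map _ (stdSimplex.map _ u)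
      rw [stdSimplex.map_comp_apply, stdSimplex.map_comp_apply]
      exact congrArg (stdSimplex.map · u)
        (funext (Fin.succAbove_succAbove_succAbove_predAbove _ _)))
  simp only [this, Fin.neg_one_pow_succAbove_add_predAbove, ← single_add, add_neg_cancel,
    single_zero]

theorem bdL_ofFn {Y : Type*} (v : Fin (p + 1) → Y) : bdL ℂ (List.ofFn v) =
    ∑ i : Fin (p + 1), single (List.ofFn fun j => v (i.succAbove j)) ((-1) ^ (i : ℕ)) := by
  induction p with
  | zero => simp [bdL]
  | succ p ih =>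
    rw [List.ofFn_succ, bdL, ih, map_sum, Fin.sum_univ_succ (n := p + 1), sub_eq_add_neg,
      ← Finset.sum_neg_distrib]
    congr 1
    refine Finset.sum_congr rfl fun i _ => ?_
    rw [cone_single, List.ofFn_succ]
    simp [pow_succ]

variable {G : Type*} [Group G] [MulAction G X] [ContinuousConstSMul G X]

theorem equi_dS : Equi G (dS : Sx X (p + 1) → Sx X p →₀ ℂ) := fun g s => by
  simp only [dS, map_sum, act_single]
  rfl

/-- the list of labels of the vertices -/
noncomputable def lbl (κ : X → G) (s : Sx X p) : List G :=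
  List.ofFn fun j => κ (s (stdSimplex.vertex j))

variable {κ : X → G} {T : List G → Ch ℂ G}

omit [Group G] [MulAction G X] [ContinuousConstSMul G X] in
theorem bdL_lbl (s : Sx X (p + 1)) :
    bdL ℂ (lbl κ s) = lc (fun s => single (lbl κ s) 1) (dS s) := by
  rw [lbl, bdL_ofFn, lc_dS]
  refine Finset.sum_congr rfl fun i _ => ?_
  rw [smul_single, smul_eq_mul, mul_one, lbl]
  simp only [fc, ContinuousMap.comp_apply, ContinuousMap.coe_mk, stdSimplex.map_vertex]

theorem lbl_smul (hκ : ∀ (g : G) x, κ (g • x) = g * κ x) (g : G) (s : Sx X p) :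
    lbl κ (g • s) = g • lbl κ s := by
  rw [lbl, lbl, smul_list, List.map_ofFn]
  exact congrArg List.ofFn (funext fun j => hκ g _)

/-- one stage of the comparison -/
structure St (κ : X → G) (T : List G → Ch ℂ G) (p : ℕ) (b : List G → Sx X p →₀ ℂ)
    (b' : List G → Sx X (p + 1) →₀ ℂ) (h : Sx X p → Sx X (p + 1) →₀ ℂ) : Prop where
  e1 : Equi G b'
  e2 : Equi G h
  off : ∀ l : List G, l.length ≠ p + 1 → b' l = 0
  ch : ∀ l, lc dS (b' l) = lc b (bdL ℂ l)
  cyc : ∀ s, lc dS (single s 1 - lc b' (T (lbl κ s)) - lc h (dS s)) = 0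

variable [ContractibleSpace X] {R : Finset G} {d : ℕ}

theorem St.step (hκ : ∀ (g : G) x, κ (g • x) = g * κ x) (hT : Dom R d T)
    {b : List G → Sx X p →₀ ℂ} {b' : List G → Sx X (p + 1) →₀ ℂ}
    {h : Sx X p → Sx X (p + 1) →₀ ℂ} (H : St κ T p b b' h) : ∃ b'' h', St κ T (p + 1) b' b'' h' ∧
      ∀ s, lc dS (h' s) = single s 1 - lc b' (T (lbl κ s)) - lc h (dS s) := by
  obtain ⟨b'', a1, a2, a3⟩ := exists_equi (G := G) (D := fun l : List G => l.length = p + 2)
    (κ := hd) (fun g l hl => (length_smul g l).trans hl)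
    (fun g l hl => hd_smul g (ne_nil_of_length hl))
    (P := fun l (w : Sx X (p + 2) →₀ ℂ) => lc dS w = lc b' (bdL ℂ l))
    (fun g l w _ _ h => by rw [equi_dS.lc_act, h, equi_bdL g l, H.e1.lc_act])
    fun l _ _ => sing_exact _ (by
      rw [map_lc]
      simp only [H.ch]
      rw [← map_lc (lc b)]
      exact (congrArg (lc b) (bd_bdL l)).trans (map_zero _))
  obtain ⟨h', c1, c2, -⟩ := exists_equi (G := G) (D := fun _ : Sx X (p + 1) => True)
    (κ := fun s => κ (s (stdSimplex.vertex 0))) (fun _ _ _ => trivial) (fun g s _ => hκ g _)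
    (P := fun s (w : Sx X (p + 2) →₀ ℂ) =>
      lc dS w = single s 1 - lc b' (T (lbl κ s)) - lc h (dS s))
    (fun g s w _ _ h => by
      rw [equi_dS.lc_act, h, lbl_smul hκ, hT.equi, equi_dS g s, H.e1.lc_act, H.e2.lc_act, map_sub,
        map_sub, act_single])
    fun s _ _ => sing_exact _ (H.cyc s)
  have a4 : ∀ l, lc dS (b'' l) = lc b' (bdL ℂ l) := fun l => by
    by_cases hl : l.length = p + 2
    · exact a2 l hl
    · rw [a3 l hl, map_zero, lc_congr (v := fun _ => 0), lc_zero]
      exact fun l' hl' => H.off l' (by have := (sup_bdL l l' hl').2; omega)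
  refine ⟨b'', h', ⟨a1, c1, a3, a4, fun s => ?_⟩, fun s => c2 s trivial⟩
  rw [map_sub, map_sub, lc_single, one_smul, map_lc, map_lc]
  simp only [a4, c2 _ trivial]
  rw [← lc_bd, hT.chain, bdL_lbl, lc_sub, lc_sub, lc_self, ← map_lc (lc h), dS_dS, map_zero,
    map_lc (lc T), map_lc (lc b')]
  simp only [lc_single, one_smul]
  abel

theorem exists_st (hκ : ∀ (g : G) x, κ (g • x) = g * κ x) (hT : Dom R d T) (p : ℕ) :
    ∃ b b' h, St κ T p b b' h := by
  induction p with
  | zero =>
    obtain ⟨x₀⟩ : Nonempty X := inferInstance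
    haveI : IsEmpty (stdSimplex ℝ (Fin 0)) := ⟨fun t => by simpa using stdSimplex.sum_eq_one t⟩
    have hs : ∀ s t : Sx X 0, s = t := fun s t => ContinuousMap.ext fun u => isEmptyElim u
    have h0 : ∀ s : Sx X 1, dS s = single (ContinuousMap.const _ x₀) 1 := fun s => by
      rw [dS, Fin.sum_univ_one, hs (fc _ _) (ContinuousMap.const _ x₀)]
      rfl
    let b : List G → Sx X 0 →₀ ℂ := fun l =>
      if l.length = 0 then single (ContinuousMap.const _ x₀) 1 else 0
    let b' : List G → Sx X 1 →₀ ℂ := fun l =>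
      if l.length = 1 then single (hd l • ContinuousMap.const _ x₀) 1 else 0
    have h1 : ∀ l, lc dS (b' l) = lc b (bdL ℂ l) := fun l => by
      by_cases hl : l.length = 1
      · obtain ⟨g, rfl⟩ := List.length_eq_one_iff.1 hl
        simp [b, b', bdL, h0]
      · rw [show b' l = 0 from if_neg hl, map_zero, lc_congr (v := fun _ => 0), lc_zero]
        exact fun l' hl' => if_neg (by have := (sup_bdL l l' hl').2; omega)
    refine ⟨b, b', fun _ => 0, fun g l => ?_, equi_zero, fun l hl => if_neg hl, h1, fun s => ?_⟩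
    · simp only [b', length_smul]
      split_ifs with hl
      · rw [act_single, hd_smul g (ne_nil_of_length hl), mul_smul]
      · rw [map_zero]
    · rw [lc_zero, sub_zero, map_sub, lc_single, one_smul, map_lc]
      simp only [h1]
      rw [← lc_bd, hT.chain, bdL_lbl, h0, lc_single, one_smul, lc_single, one_smul]
      change _ - lc b (T []) = 0
      rw [hT.nil, lc_single, one_smul]
      exact sub_self _
  | succ p ih =>
    obtain ⟨b, b', h, H⟩ := ih
    obtain ⟨b'', h', H', -⟩ := H.step hκ hT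
    exact ⟨b', b'', h', H'⟩

theorem sing_compare (hκ : ∀ (g : G) x, κ (g • x) = g * κ x) (hT : Dom R d T)
    {z : Sx X (p + 1) →₀ VN G} (hz : bc G dS z ∈ rl G (Sx X p)) :
    Cyc (p + 1) (bc G (fun s => single (lbl κ s) 1) z) ∧
      (Bdy T (bc G (fun s => single (lbl κ s) 1) z) →
        z ∈ LinearMap.range (bc G (dS : Sx X (p + 2) → _)) ⊔ rl G (Sx X (p + 1))) := by
  refine ⟨⟨fun l hl => ?_, ?_⟩, fun ⟨y, hy⟩ => ?_⟩
  · obtain ⟨s, -, hs⟩ := support_bc hl
    rw [Finset.mem_singleton.1 (support_single_subset hs), lbl, List.length_ofFn]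
  · rw [bc_bc]
    simp only [lc_single, one_smul, bdL_lbl]
    rw [← bc_bc]
    exact (equi_single (lbl_smul hκ)).bc_rl hz
  obtain ⟨b, b', h, H⟩ := exists_st hκ hT p
  obtain ⟨b'', h', H', e⟩ := H.step hκ hT
  refine Submodule.mem_sup.2 ⟨_, ⟨bc G h' z + bc G b'' y, rfl⟩, _,
    add_mem (H.e1.bc_rl hy) (H.e2.bc_rl hz), ?_⟩
  rw [map_add, map_sub]
  simp only [bc_bc, e, H'.ch, lc_single, one_smul, bc_sub, bc_id]
  abel

omit [ContractibleSpace X] [MulAction G X] [ContinuousConstSMul G X] in
theorem bc_dS : bc G (dS : Sx X (p + 2) → _) = bdry (VN G) (face (X := X) (n := p)) := by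
  rw [bc, bdry]
  congr 1
  funext s
  rw [dS, map_sum]
  refine Finset.sum_congr rfl fun i _ => ?_
  rw [up_single, smul_single, ← Algebra.algebraMap_eq_smul_one, map_pow, map_neg, map_one]
  rfl

/-- **vanishing in the top degrees** -/
theorem betti_top [Infinite G] (hκ : ∀ (g : G) x, κ (g • x) = g * κ x) (hT : Dom R d T) {n : ℕ}
    (hD : Dual G (n + 1)) (hfg : Group.FG G) (h1 : vnDim G (K (lamHom G)) = 0) (hp : n ≤ p + 1) :
    bettiTwo G X (p + 1) = 0 := by
  rw [bettiTwo_succ, l2Betti, homol_eq, homDim, ← bc_dS, ← bc_dS]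
  obtain ⟨t1, w, Θ, t2⟩ := top_degrees hT hD
  rw [← le_zero_iff, ← der_dim w hfg h1]
  rcases hp.eq_or_lt with rfl | hp
  · exact quoDim_le (Θ ∘ₗ bc G fun s => single (lbl κ s) 1)
      (fun z hz => (t2 _ (sing_compare hκ hT hz).1).1)
      fun z hz h => (sing_compare hκ hT hz).2 ((t2 _ (sing_compare hκ hT hz).1).2 h)
  · exact quoDim_le 0 (fun z _ => zero_mem _)
      fun z hz _ => (sing_compare hκ hT hz).2 (t1 _ (by omega) _ (sing_compare hκ hT hz).1)

end Vale.Agent.P239Z
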